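import Mathlib

/-!
# P249 lower bound: a discrete Prekopa-Leindler inequality on `ℕ`
-/

namespace Vale.Agent.Lib.P249.Lower

open Finset Pointwise MeasureTheory

/-- the layer function -/
noncomputable def layer (c t : ℝ) : ℝ := if t < c then 1 else 0

lemma layer_eq_indicator (c : ℝ) : layer c = (Set.Iio c).indicator (fun _ => (1 : ℝ)) := by
  funext t
  simp [layer, Set.indicator_apply]

lemma layer_integrableOn (c : ℝ) : IntegrableOn (layer c) (Set.Ioc (0 : ℝ) 1) := by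
  rw [layer_eq_indicator]
  have h : IntegrableOn (fun _ : ℝ => (1 : ℝ)) (Set.Ioc (0 : ℝ) 1) :=
    integrableOn_const (by simp)
  exact Integrable.indicator h measurableSet_Iio

lemma integral_layer (c : ℝ) :
    ∫ t in Set.Ioc (0 : ℝ) 1, layer c t = (volume (Set.Ioc (0 : ℝ) 1 ∩ Set.Iio c)).toReal := by
  rw [layer_eq_indicator, setIntegral_indicator measurableSet_Iio]
  simp [Measure.real]

lemma integral_layer_le {c : ℝ} (hc : 0 ≤ c) : ∫ t in Set.Ioc (0 : ℝ) 1, layer c t ≤ c := by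
  rw [integral_layer]
  have hsub : Set.Ioc (0 : ℝ) 1 ∩ Set.Iio c ⊆ Set.Ioo 0 c := fun t ht => ⟨ht.1.1, ht.2⟩
  have h1 : volume (Set.Ioc (0 : ℝ) 1 ∩ Set.Iio c) ≤ ENNReal.ofReal c := by
    calc volume (Set.Ioc (0 : ℝ) 1 ∩ Set.Iio c) ≤ volume (Set.Ioo 0 c) := measure_mono hsub
      _ = ENNReal.ofReal c := by rw [Real.volume_Ioo, sub_zero]
  exact ENNReal.toReal_le_of_le_ofReal hc h1

lemma integral_layer_eq {c : ℝ} (hc : 0 ≤ c) (hc1 : c ≤ 1) :
    ∫ t in Set.Ioc (0 : ℝ) 1, layer c t = c := by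
  rw [integral_layer]
  have hset : Set.Ioc (0 : ℝ) 1 ∩ Set.Iio c = Set.Ioo 0 c := by
    ext t
    constructor
    · intro ht
      exact ⟨ht.1.1, ht.2⟩
    · intro ht
      exact ⟨⟨ht.1, (ht.2.le).trans hc1⟩, ht.2⟩
  rw [hset, Real.volume_Ioo, sub_zero, ENNReal.toReal_ofReal hc]

lemma sum_layer (S : Finset ℕ) (F : ℕ → ℝ) (t : ℝ) :
    ∑ x ∈ S, layer (F x) t = ((S.filter (fun x => t < F x)).card : ℝ) := by
  simp [layer, Finset.sum_boole]

lemma pointwise_layer (S T : Finset ℕ) (F G H : ℕ → ℝ)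
    (hF1 : ∀ x ∈ S, F x ≤ 1) (hFx : ∃ x ∈ S, F x = 1)
    (hG1 : ∀ y ∈ T, G y ≤ 1) (hGy : ∃ y ∈ T, G y = 1)
    (h : ∀ x ∈ S, ∀ y ∈ T, min (F x) (G y) ≤ H (x + y)) (t : ℝ) (ht1 : t ≤ 1) :
    ∑ x ∈ S, layer (F x) t + ∑ y ∈ T, layer (G y) t ≤ ∑ z ∈ S + T, layer (H z) t + 1 := by
  rw [sum_layer, sum_layer, sum_layer]
  rcases ht1.lt_or_eq with ht | ht
  · obtain ⟨x0, hx0, hFx0⟩ := hFx
    obtain ⟨y0, hy0, hGy0⟩ := hGy
    have hA : (S.filter (fun x => t < F x)).Nonempty :=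
      ⟨x0, Finset.mem_filter.mpr ⟨hx0, by rw [hFx0]; exact ht⟩⟩
    have hB : (T.filter (fun y => t < G y)).Nonempty :=
      ⟨y0, Finset.mem_filter.mpr ⟨hy0, by rw [hGy0]; exact ht⟩⟩
    have hcd := cauchy_davenport_add_of_linearOrder_isCancelAdd hA hB
    have hsub : S.filter (fun x => t < F x) + T.filter (fun y => t < G y) ⊆
        (S + T).filter (fun z => t < H z) := by
      intro z hz
      obtain ⟨x, hx, y, hy, rfl⟩ := Finset.mem_add.mp hz
      rw [Finset.mem_filter] at hx hy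
      refine Finset.mem_filter.mpr ⟨Finset.add_mem_add hx.1 hy.1, ?_⟩
      exact lt_of_lt_of_le (lt_min hx.2 hy.2) (h x hx.1 y hy.1)
    have hcard := Finset.card_le_card hsub
    have hnat : (S.filter (fun x => t < F x)).card + (T.filter (fun y => t < G y)).card ≤
        ((S + T).filter (fun z => t < H z)).card + 1 := by omega
    exact_mod_cast hnat
  · have hA : S.filter (fun x => t < F x) = ∅ := by
      apply Finset.filter_eq_empty_iff.mpr
      intro x hx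
      rw [ht]
      exact not_lt.mpr (hF1 x hx)
    have hB : T.filter (fun y => t < G y) = ∅ := by
      apply Finset.filter_eq_empty_iff.mpr
      intro y hy
      rw [ht]
      exact not_lt.mpr (hG1 y hy)
    rw [hA, hB]
    simp only [Finset.card_empty, Nat.cast_zero, add_zero]
    positivity

/-- normalised form: layer cake and `|A + B| ≥ |A| + |B| - 1` -/
theorem sum_add_sum_le (S T : Finset ℕ) (F G H : ℕ → ℝ)
    (hF0 : ∀ x ∈ S, 0 ≤ F x) (hF1 : ∀ x ∈ S, F x ≤ 1) (hFx : ∃ x ∈ S, F x = 1)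
    (hG0 : ∀ y ∈ T, 0 ≤ G y) (hG1 : ∀ y ∈ T, G y ≤ 1) (hGy : ∃ y ∈ T, G y = 1)
    (hH : ∀ z, 0 ≤ H z)
    (h : ∀ x ∈ S, ∀ y ∈ T, min (F x) (G y) ≤ H (x + y)) :
    ∑ x ∈ S, F x + ∑ y ∈ T, G y ≤ ∑ z ∈ S + T, H z + 1 := by
  have hI : ∀ (U : Finset ℕ) (K : ℕ → ℝ),
      IntegrableOn (fun t => ∑ x ∈ U, layer (K x) t) (Set.Ioc (0 : ℝ) 1) := fun U K =>
    integrable_finsetSum U fun x _ => layer_integrableOn (K x)
  have hS : ∀ (U : Finset ℕ) (K : ℕ → ℝ),
      ∫ t in Set.Ioc (0 : ℝ) 1, ∑ x ∈ U, layer (K x) t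
        = ∑ x ∈ U, ∫ t in Set.Ioc (0 : ℝ) 1, layer (K x) t := fun U K =>
    integral_finsetSum U fun x _ => layer_integrableOn (K x)
  have h1 : IntegrableOn (fun _ : ℝ => (1 : ℝ)) (Set.Ioc (0 : ℝ) 1) :=
    integrableOn_const (by simp)
  have hmono : ∫ t in Set.Ioc (0 : ℝ) 1, (∑ x ∈ S, layer (F x) t + ∑ y ∈ T, layer (G y) t)
      ≤ ∫ t in Set.Ioc (0 : ℝ) 1, (∑ z ∈ S + T, layer (H z) t + 1) := by
    apply setIntegral_mono_on ((hI S F).add (hI T G)) ((hI (S + T) H).add h1) measurableSet_Ioc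
    intro t ht
    exact pointwise_layer S T F G H hF1 hFx hG1 hGy h t ht.2
  rw [integral_add (hI S F) (hI T G), integral_add (hI (S + T) H) h1, hS, hS, hS] at hmono
  have e1 : ∑ x ∈ S, ∫ t in Set.Ioc (0 : ℝ) 1, layer (F x) t = ∑ x ∈ S, F x :=
    Finset.sum_congr rfl fun x hx => integral_layer_eq (hF0 x hx) (hF1 x hx)
  have e2 : ∑ y ∈ T, ∫ t in Set.Ioc (0 : ℝ) 1, layer (G y) t = ∑ y ∈ T, G y :=
    Finset.sum_congr rfl fun y hy => integral_layer_eq (hG0 y hy) (hG1 y hy)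
  have e3 : ∑ z ∈ S + T, ∫ t in Set.Ioc (0 : ℝ) 1, layer (H z) t ≤ ∑ z ∈ S + T, H z :=
    Finset.sum_le_sum fun z _ => integral_layer_le (hH z)
  have e4 : ∫ _t in Set.Ioc (0 : ℝ) 1, (1 : ℝ) = 1 := by simp
  rw [e1, e2, e4] at hmono
  linarith

lemma min_sq_le_mul {u v : ℝ} (hu : 0 ≤ u) (hv : 0 ≤ v) : (min u v) ^ 2 ≤ u * v := by
  rcases le_total u v with h | h
  · rw [min_eq_left h]
    nlinarith
  · rw [min_eq_right h]
    nlinarith

lemma discrete_PL_aux (S T : Finset ℕ) (F G H : ℕ → ℝ) (M : ℝ)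
    (hF : ∀ x, 0 ≤ F x) (hG : ∀ y, 0 ≤ G y) (hH : ∀ z, 0 ≤ H z) (hM : ∀ z, H z ≤ M)
    (h : ∀ x ∈ S, ∀ y ∈ T, F x * G y ≤ H (x + y) ^ 2)
    {x0 y0 : ℕ} (hx0 : x0 ∈ S) (hy0 : y0 ∈ T) (ha : 0 < F x0) (hb : 0 < G y0)
    (hmaxF : ∀ x ∈ S, F x ≤ F x0) (hmaxG : ∀ y ∈ T, G y ≤ G y0) :
    4 * ((∑ x ∈ S, F x) * ∑ y ∈ T, G y) ≤ (∑ z ∈ S + T, H z + M) ^ 2 := by
  set a := F x0 with ha_def
  set b := G y0 with hb_def
  set r := Real.sqrt (a * b) with hr_def
  have hab : 0 < a * b := mul_pos ha hb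
  have hr : 0 < r := Real.sqrt_pos.mpr hab
  have hr2 : r ^ 2 = a * b := Real.sq_sqrt hab.le
  have hrM : r ≤ M := by
    have h1 : r ^ 2 ≤ H (x0 + y0) ^ 2 := by rw [hr2]; exact h x0 hx0 y0 hy0
    exact ((abs_le_of_sq_le_sq' h1 (hH _)).2).trans (hM _)
  have key := sum_add_sum_le S T (fun x => F x / a) (fun y => G y / b) (fun z => H z / r)
    (fun x _ => div_nonneg (hF x) ha.le) (fun x hx => (div_le_one ha).mpr (hmaxF x hx))
    ⟨x0, hx0, div_self ha.ne'⟩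
    (fun y _ => div_nonneg (hG y) hb.le) (fun y hy => (div_le_one hb).mpr (hmaxG y hy))
    ⟨y0, hy0, div_self hb.ne'⟩
    (fun z => div_nonneg (hH z) hr.le)
    (by
      intro x hx y hy
      rw [le_div_iff₀ hr]
      have hm : 0 ≤ min (F x / a) (G y / b) :=
        le_min (div_nonneg (hF x) ha.le) (div_nonneg (hG y) hb.le)
      have h1 : (min (F x / a) (G y / b) * r) ^ 2 ≤ H (x + y) ^ 2 := by
        rw [mul_pow, hr2]
        have h2 := min_sq_le_mul (div_nonneg (hF x) ha.le) (div_nonneg (hG y) hb.le)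
        calc min (F x / a) (G y / b) ^ 2 * (a * b) ≤ (F x / a * (G y / b)) * (a * b) :=
              mul_le_mul_of_nonneg_right h2 hab.le
          _ = F x * G y := by field_simp
          _ ≤ H (x + y) ^ 2 := h x hx y hy
      exact (abs_le_of_sq_le_sq' h1 (hH _)).2)
  simp only [← Finset.sum_div] at key
  set A := ∑ x ∈ S, F x with hA
  set B := ∑ y ∈ T, G y with hB
  set C := ∑ z ∈ S + T, H z with hC
  have hA0 : 0 ≤ A := Finset.sum_nonneg fun x _ => hF x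
  have hB0 : 0 ≤ B := Finset.sum_nonneg fun y _ => hG y
  have hC0 : 0 ≤ C := Finset.sum_nonneg fun z _ => hH z
  have h1 : 4 * (A * B) = a * b * (4 * ((A / a) * (B / b))) := by field_simp
  have h2 : 4 * ((A / a) * (B / b)) ≤ (A / a + B / b) ^ 2 := by nlinarith [sq_nonneg (A / a - B / b)]
  have h3 : (A / a + B / b) ^ 2 ≤ (C / r + 1) ^ 2 := by
    have : 0 ≤ A / a + B / b := add_nonneg (div_nonneg hA0 ha.le) (div_nonneg hB0 hb.le)
    exact pow_le_pow_left₀ this key 2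
  have h4 : a * b * (C / r + 1) ^ 2 = (C + r) ^ 2 := by
    rw [← hr2]
    field_simp
  have h5 : (C + r) ^ 2 ≤ (C + M) ^ 2 := by
    apply pow_le_pow_left₀ (by positivity)
    linarith
  calc 4 * (A * B) = a * b * (4 * ((A / a) * (B / b))) := h1
    _ ≤ a * b * (C / r + 1) ^ 2 := mul_le_mul_of_nonneg_left (h2.trans h3) hab.le
    _ = (C + r) ^ 2 := h4
    _ ≤ (C + M) ^ 2 := h5

/-- discrete Prekopa-Leindler inequality with an additive error `M ≥ max H` -/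
theorem discrete_PL (S T : Finset ℕ) (F G H : ℕ → ℝ) (M : ℝ)
    (hF : ∀ x, 0 ≤ F x) (hG : ∀ y, 0 ≤ G y) (hH : ∀ z, 0 ≤ H z) (hM : ∀ z, H z ≤ M)
    (h : ∀ x ∈ S, ∀ y ∈ T, F x * G y ≤ H (x + y) ^ 2) :
    4 * ((∑ x ∈ S, F x) * ∑ y ∈ T, G y) ≤ (∑ z ∈ S + T, H z + M) ^ 2 := by
  by_cases hS : ∑ x ∈ S, F x = 0
  · rw [hS]
    simp only [zero_mul, mul_zero]
    positivity
  by_cases hT : ∑ y ∈ T, G y = 0
  · rw [hT]
    simp only [mul_zero]
    positivity
  have hSne : S.Nonempty := by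
    rw [Finset.nonempty_iff_ne_empty]
    rintro rfl
    exact hS Finset.sum_empty
  have hTne : T.Nonempty := by
    rw [Finset.nonempty_iff_ne_empty]
    rintro rfl
    exact hT Finset.sum_empty
  obtain ⟨x0, hx0, hmaxF⟩ := Finset.exists_max_image S F hSne
  obtain ⟨y0, hy0, hmaxG⟩ := Finset.exists_max_image T G hTne
  have ha : 0 < F x0 := by
    rcases (hF x0).lt_or_eq with h0 | h0
    · exact h0
    · exfalso
      apply hS
      apply Finset.sum_eq_zero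
      intro x hx
      exact le_antisymm ((hmaxF x hx).trans h0.symm.le) (hF x)
  have hb : 0 < G y0 := by
    rcases (hG y0).lt_or_eq with h0 | h0
    · exact h0
    · exfalso
      apply hT
      apply Finset.sum_eq_zero
      intro y hy
      exact le_antisymm ((hmaxG y hy).trans h0.symm.le) (hG y)
  exact discrete_PL_aux S T F G H M hF hG hH hM h hx0 hy0 ha hb hmaxF hmaxG

end Vale.Agent.Lib.P249.Lower
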