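import Vale.Agent.Lib.P249.Lower.Defs
import Vale.Agent.Lib.P249.Lower.PL

/-!
# P249 lower bound: property (tau) for the Gaussian weights on the grid `{0, 1/m, ..., 1}`
-/

namespace Vale.Agent.Lib.P249.Lower

open Finset Pointwise

theorem gw_pos (m : ℕ) (x : Fin (m + 1)) : 0 < gw m x := Real.exp_pos _

theorem gw_sum_pos (m : ℕ) : 0 < ∑ y, gw m y :=
  Finset.sum_pos (fun y _ => gw_pos m y) Finset.univ_nonempty

theorem gmu_nonneg (m : ℕ) (x : Fin (m + 1)) : 0 ≤ gmu m x :=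
  div_nonneg (gw_pos m x).le (gw_sum_pos m).le

theorem gmu_sum (m : ℕ) : ∑ x, gmu m x = 1 := by
  unfold gmu
  rw [← Finset.sum_div]
  exact div_self (gw_sum_pos m).ne'

theorem gpt_nonneg (m : ℕ) (x : Fin (m + 1)) : 0 ≤ gpt m x := by
  unfold gpt; positivity

theorem gpt_le_one (m : ℕ) (hm : 1 ≤ m) (x : Fin (m + 1)) : gpt m x ≤ 1 := by
  unfold gpt
  have hm' : (0 : ℝ) < m := by exact_mod_cast hm
  rw [div_le_one hm']
  exact_mod_cast Nat.lt_succ_iff.mp x.2

theorem gw_ge_half (m : ℕ) (hm : 1 ≤ m) (x : Fin (m + 1)) : (1 : ℝ) / 2 ≤ gw m x := by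
  unfold gw
  have h0 := gpt_nonneg m x
  have h1 := gpt_le_one m hm x
  have h2 : -(gpt m x) ^ 2 / 2 + 1 ≤ Real.exp (-(gpt m x) ^ 2 / 2) := Real.add_one_le_exp _
  nlinarith

/-- the total weight is at least `m / 2` -/
theorem gw_sum_ge (m : ℕ) (hm : 1 ≤ m) : (m : ℝ) / 2 ≤ ∑ y, gw m y := by
  have h1 : ∑ _y : Fin (m + 1), (1 : ℝ) / 2 ≤ ∑ y, gw m y :=
    Finset.sum_le_sum (fun y _ => gw_ge_half m hm y)
  simp only [Finset.sum_const, Finset.card_univ, Fintype.card_fin, nsmul_eq_mul] at h1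
  push_cast at h1
  linarith

/-- splitting a sum into even and odd indices -/
theorem sum_range_even_odd (f : ℕ → ℝ) (n : ℕ) :
    ∑ z ∈ range (2 * n + 1), f z = ∑ i ∈ range (n + 1), f (2 * i) + ∑ i ∈ range n, f (2 * i + 1) := by
  induction n with
  | zero => simp
  | succ n ih =>
    have : 2 * (n + 1) + 1 = (2 * n + 1) + 1 + 1 := by ring
    rw [this, Finset.sum_range_succ, Finset.sum_range_succ, ih,
      Finset.sum_range_succ (fun i => f (2 * i)) (n + 1),
      Finset.sum_range_succ (fun i => f (2 * i + 1)) n]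
    have h2 : 2 * n + 1 + 1 = 2 * (n + 1) := by ring
    rw [h2]
    ring

/-- **Base case.** -/
theorem gmu_tau (m : ℕ) (hm : 1 ≤ m) :
    Tau (gmu m) (fun x y => Real.exp ((gpt m x - gpt m y) ^ 2 / 4)) ((1 + 1 / (m : ℝ)) ^ 2) := by
  intro u v hu hv huv
  have hm' : (0 : ℝ) < m := by exact_mod_cast hm
  set Z : ℝ := ∑ y, gw m y with hZ
  have hZpos : 0 < Z := gw_sum_pos m
  have hZge : (m : ℝ) / 2 ≤ Z := gw_sum_ge m hm
  let w' : ℕ → ℝ := fun i => Real.exp (-((i : ℝ) / m) ^ 2 / 2)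
  let u' : ℕ → ℝ := fun i => if h : i < m + 1 then u ⟨i, h⟩ else 0
  let v' : ℕ → ℝ := fun i => if h : i < m + 1 then v ⟨i, h⟩ else 0
  let F : ℕ → ℝ := fun i => w' i * u' i
  let G : ℕ → ℝ := fun i => w' i * v' i
  let Hf : ℕ → ℝ := fun z => Real.exp (-((z : ℝ) / m) ^ 2 / 8)
  have hw'pos : ∀ i, 0 < w' i := fun i => Real.exp_pos _
  have hu' : ∀ i, 0 ≤ u' i := by
    intro i
    simp only [u']
    split_ifs with h
    · exact hu _
    · exact le_refl _
  have hv' : ∀ i, 0 ≤ v' i := by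
    intro i
    simp only [v']
    split_ifs with h
    · exact hv _
    · exact le_refl _
  have hF : ∀ i, 0 ≤ F i := fun i => mul_nonneg (hw'pos i).le (hu' i)
  have hG : ∀ i, 0 ≤ G i := fun i => mul_nonneg (hw'pos i).le (hv' i)
  have hH : ∀ z, 0 ≤ Hf z := fun z => (Real.exp_pos _).le
  have hM : ∀ z, Hf z ≤ 1 := by
    intro z
    simp only [Hf]
    rw [Real.exp_le_one_iff]
    have : 0 ≤ ((z : ℝ) / m) ^ 2 := sq_nonneg _
    linarith
  have hFG : ∀ x ∈ range (m + 1), ∀ y ∈ range (m + 1), F x * G y ≤ Hf (x + y) ^ 2 := by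
    intro i hi j hj
    rw [Finset.mem_range] at hi hj
    have h1 : u' i * v' j ≤ Real.exp (((i : ℝ) / m - (j : ℝ) / m) ^ 2 / 4) := by
      simp only [u', v', dif_pos hi, dif_pos hj]
      have := huv ⟨i, hi⟩ ⟨j, hj⟩
      simpa [gpt] using this
    have h2 : F i * G j = (w' i * w' j) * (u' i * v' j) := by
      simp only [F, G]; ring
    rw [h2]
    have h3 : (w' i * w' j) * Real.exp (((i : ℝ) / m - (j : ℝ) / m) ^ 2 / 4) = Hf (i + j) ^ 2 := by
      simp only [w', Hf]
      rw [← Real.exp_add, ← Real.exp_add, sq (Real.exp _), ← Real.exp_add]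
      congr 1
      push_cast
      ring
    rw [← h3]
    exact mul_le_mul_of_nonneg_left h1 (mul_pos (hw'pos i) (hw'pos j)).le
  have hPL := discrete_PL (range (m + 1)) (range (m + 1)) F G Hf 1 hF hG hH hM hFG
  -- the sum of `w'`
  have hZ' : ∑ i ∈ range (m + 1), w' i = Z := by
    rw [hZ, ← Fin.sum_univ_eq_sum_range (fun i => w' i) (m + 1)]
    rfl
  have hsub : range (m + 1) + range (m + 1) ⊆ range (2 * m + 1) := by
    intro z hz
    rw [Finset.mem_add] at hz
    obtain ⟨a, ha, b, hb, rfl⟩ := hz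
    rw [Finset.mem_range] at ha hb ⊢
    omega
  have hsumH : ∑ z ∈ range (m + 1) + range (m + 1), Hf z ≤ 2 * Z := by
    refine (Finset.sum_le_sum_of_subset_of_nonneg hsub (fun z _ _ => hH z)).trans ?_
    rw [sum_range_even_odd]
    have he : ∀ i, Hf (2 * i) = w' i := by
      intro i
      simp only [Hf, w']
      congr 1
      push_cast
      ring
    have ho : ∀ i, Hf (2 * i + 1) ≤ w' i := by
      intro i
      rw [← he i]
      simp only [Hf]
      rw [Real.exp_le_exp]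
      have h1 : ((2 * i : ℕ) : ℝ) / m ≤ ((2 * i + 1 : ℕ) : ℝ) / m := by
        apply div_le_div_of_nonneg_right _ hm'.le
        push_cast; linarith
      have h0 : 0 ≤ ((2 * i : ℕ) : ℝ) / m := by positivity
      have h2 : (((2 * i : ℕ) : ℝ) / m) ^ 2 ≤ (((2 * i + 1 : ℕ) : ℝ) / m) ^ 2 :=
        pow_le_pow_left₀ h0 h1 2
      linarith
    have h1 : ∑ i ∈ range (m + 1), Hf (2 * i) = Z := by
      rw [← hZ']; exact Finset.sum_congr rfl (fun i _ => he i)
    have h2 : ∑ i ∈ range m, Hf (2 * i + 1) ≤ Z := by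
      rw [← hZ', Finset.sum_range_succ]
      have := Finset.sum_le_sum (s := range m) (fun i _ => ho i)
      have h3 := (hw'pos m).le
      linarith
    linarith
  have hsumF : ∑ x, gmu m x * u x = (∑ i ∈ range (m + 1), F i) / Z := by
    rw [← Fin.sum_univ_eq_sum_range (fun i => F i) (m + 1), Finset.sum_div]
    apply Finset.sum_congr rfl
    intro x _
    have h1 : gmu m x = w' x / Z := rfl
    have h2 : u' x = u x := by simp only [u', dif_pos x.2]
    simp only [F]
    rw [h1, h2]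
    ring
  have hsumG : ∑ x, gmu m x * v x = (∑ i ∈ range (m + 1), G i) / Z := by
    rw [← Fin.sum_univ_eq_sum_range (fun i => G i) (m + 1), Finset.sum_div]
    apply Finset.sum_congr rfl
    intro x _
    have h1 : gmu m x = w' x / Z := rfl
    have h2 : v' x = v x := by simp only [v', dif_pos x.2]
    simp only [G]
    rw [h1, h2]
    ring
  rw [hsumF, hsumG]
  set SF := ∑ i ∈ range (m + 1), F i with hSF
  set SG := ∑ i ∈ range (m + 1), G i with hSG
  set SH := ∑ z ∈ range (m + 1) + range (m + 1), Hf z with hSH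
  have hSH0 : 0 ≤ SH := Finset.sum_nonneg (fun z _ => hH z)
  have h4 : 4 * (SF * SG) ≤ (2 * Z + 1) ^ 2 := by
    refine hPL.trans ?_
    apply pow_le_pow_left₀ (by linarith)
    linarith
  have h5 : SF / Z * (SG / Z) = (4 * (SF * SG)) / (4 * Z ^ 2) := by
    field_simp
  rw [h5, div_le_iff₀ (by positivity)]
  refine h4.trans ?_
  have h6 : (1 + 1 / (m : ℝ)) ^ 2 * (4 * Z ^ 2) = (2 * Z + 2 * Z / m) ^ 2 := by
    field_simp
    ring
  rw [h6]
  apply pow_le_pow_left₀ (by linarith)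
  have h7 : 1 ≤ 2 * Z / m := by
    rw [le_div_iff₀ hm']
    linarith
  linarith

end Vale.Agent.Lib.P249.Lower
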