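import Vale.Agent.Lib.P249.Lower.Defs

/-!
# P249 lower bound: injectivity of the grid and a lower bound for the variance of the weights
-/

namespace Vale.Agent.Lib.P249.Lower

open Finset

theorem gpt_injective (m : ℕ) (hm : 1 ≤ m) : Function.Injective (gpt m) := by
  intro x y h
  unfold gpt at h
  have hm0 : (m : ℝ) ≠ 0 := by
    have : (0 : ℝ) < m := by exact_mod_cast hm
    exact ne_of_gt this
  have h1 : ((x : ℕ) : ℝ) = ((y : ℕ) : ℝ) := by
    field_simp at h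
    exact h
  have h2 : (x : ℕ) = (y : ℕ) := by exact_mod_cast h1
  exact Fin.ext h2

theorem sum_range_id_real (N : ℕ) : ∑ x ∈ range N, (x : ℝ) = (N : ℝ) * (N - 1) / 2 := by
  induction N with
  | zero => simp
  | succ n ih =>
    rw [Finset.sum_range_succ, ih]
    push_cast
    ring

theorem sum_range_sq_real (N : ℕ) :
    ∑ x ∈ range N, (x : ℝ) ^ 2 = ((N : ℝ) - 1) * N * (2 * N - 1) / 6 := by
  induction N with
  | zero => simp
  | succ n ih =>
    rw [Finset.sum_range_succ, ih]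
    push_cast
    ring

theorem sum_sq_diff (N : ℕ) :
    ∑ x ∈ range N, ∑ y ∈ range N, ((x : ℝ) - y) ^ 2 = (N : ℝ) ^ 2 * ((N : ℝ) ^ 2 - 1) / 6 := by
  have h1 : ∀ x ∈ range N, ∑ y ∈ range N, ((x : ℝ) - y) ^ 2
      = N * (x : ℝ) ^ 2 - 2 * x * ((N : ℝ) * (N - 1) / 2) + ((N : ℝ) - 1) * N * (2 * N - 1) / 6 := by
    intro x _
    have : ∀ y ∈ range N, ((x : ℝ) - y) ^ 2 = (x : ℝ) ^ 2 - 2 * x * y + (y : ℝ) ^ 2 := by
      intro y _
      ring
    rw [Finset.sum_congr rfl this, Finset.sum_add_distrib, Finset.sum_sub_distrib,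
      ← Finset.mul_sum, sum_range_id_real, sum_range_sq_real]
    simp
  rw [Finset.sum_congr rfl h1, Finset.sum_add_distrib, Finset.sum_sub_distrib, ← Finset.mul_sum,
    sum_range_sq_real]
  have h2 : ∑ x ∈ range N, 2 * (x : ℝ) * ((N : ℝ) * (N - 1) / 2)
      = ((N : ℝ) * (N - 1)) * ∑ x ∈ range N, (x : ℝ) := by
    rw [Finset.mul_sum]
    refine Finset.sum_congr rfl (fun x _ => ?_)
    ring
  rw [h2, sum_range_id_real]
  simp
  ring

theorem gpt_mem (m : ℕ) (hm : 1 ≤ m) (x : Fin (m + 1)) : 0 ≤ gpt m x ∧ gpt m x ≤ 1 := by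
  have hm0 : (0 : ℝ) < m := by exact_mod_cast hm
  unfold gpt
  constructor
  · positivity
  · rw [div_le_one hm0]
    have : (x : ℕ) ≤ m := Nat.lt_succ_iff.1 x.2
    exact_mod_cast this

theorem gw_le_one (m : ℕ) (x : Fin (m + 1)) : gw m x ≤ 1 := by
  unfold gw
  rw [Real.exp_le_one_iff]
  have : 0 ≤ (gpt m x) ^ 2 := sq_nonneg _
  linarith

theorem gw_ge (m : ℕ) (hm : 1 ≤ m) (x : Fin (m + 1)) : Real.exp (-(1 / 2)) ≤ gw m x := by
  unfold gw
  apply Real.exp_le_exp.2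
  obtain ⟨h0, h1⟩ := gpt_mem m hm x
  have : (gpt m x) ^ 2 ≤ 1 := by nlinarith
  linarith

theorem gmu_ge (m : ℕ) (hm : 1 ≤ m) (x : Fin (m + 1)) :
    Real.exp (-(1 / 2)) / (m + 1) ≤ gmu m x := by
  unfold gmu
  have hZ1 : ∑ y, gw m y ≤ (m : ℝ) + 1 := by
    calc ∑ y, gw m y ≤ ∑ _y : Fin (m + 1), (1 : ℝ) := Finset.sum_le_sum (fun y _ => gw_le_one m y)
      _ = (m : ℝ) + 1 := by simp
  have hZ0 : 0 < ∑ y, gw m y := by
    apply Finset.sum_pos
    · intro y _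
      exact Real.exp_pos _
    · exact Finset.univ_nonempty
  have he : 0 < Real.exp (-(1 / 2)) := Real.exp_pos _
  calc Real.exp (-(1 / 2)) / (m + 1) ≤ Real.exp (-(1 / 2)) / ∑ y, gw m y :=
        div_le_div_of_nonneg_left he.le hZ0 hZ1
    _ ≤ gw m x / ∑ y, gw m y := div_le_div_of_nonneg_right (gw_ge m hm x) hZ0.le

/-- the mean square distance of two independent grid points is at least `1 / 20` -/
theorem gmu_var (m : ℕ) (hm : 1 ≤ m) :
    (1 : ℝ) / 20 ≤ ∑ x, ∑ y, gmu m x * gmu m y * (gpt m x - gpt m y) ^ 2 := by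
  have hm0 : (0 : ℝ) < m := by exact_mod_cast hm
  have hm1 : (1 : ℝ) ≤ m := by exact_mod_cast hm
  set c : ℝ := Real.exp (-(1 / 2)) / (m + 1) with hc
  have hc0 : 0 ≤ c := by positivity
  have h1 : ∑ x : Fin (m + 1), ∑ y : Fin (m + 1), c * c * (gpt m x - gpt m y) ^ 2
      ≤ ∑ x, ∑ y, gmu m x * gmu m y * (gpt m x - gpt m y) ^ 2 := by
    refine Finset.sum_le_sum (fun x _ => Finset.sum_le_sum (fun y _ => ?_))
    apply mul_le_mul_of_nonneg_right _ (sq_nonneg _)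
    exact mul_le_mul (gmu_ge m hm x) (gmu_ge m hm y) hc0 (le_trans hc0 (gmu_ge m hm x))
  have h2 : ∑ x : Fin (m + 1), ∑ y : Fin (m + 1), c * c * (gpt m x - gpt m y) ^ 2
      = c * c / (m : ℝ) ^ 2 * ∑ x ∈ range (m + 1), ∑ y ∈ range (m + 1), ((x : ℝ) - y) ^ 2 := by
    rw [← Fin.sum_univ_eq_sum_range (fun x => ∑ y ∈ range (m + 1), ((x : ℝ) - y) ^ 2) (m + 1),
      Finset.mul_sum]
    refine Finset.sum_congr rfl (fun x _ => ?_)
    rw [← Fin.sum_univ_eq_sum_range (fun y => (((x : ℕ) : ℝ) - y) ^ 2) (m + 1), Finset.mul_sum]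
    refine Finset.sum_congr rfl (fun y _ => ?_)
    unfold gpt
    field_simp
  rw [sum_sq_diff] at h2
  have h3 : c * c = Real.exp (-1) / ((m : ℝ) + 1) ^ 2 := by
    rw [hc, div_mul_div_comm, ← Real.exp_add]
    congr 1
    · norm_num
    · ring
  have h4 : (1 : ℝ) / 20 ≤ c * c / (m : ℝ) ^ 2 *
      (((m + 1 : ℕ) : ℝ) ^ 2 * (((m + 1 : ℕ) : ℝ) ^ 2 - 1) / 6) := by
    rw [h3]
    push_cast
    have e1 : Real.exp (-1) / ((m : ℝ) + 1) ^ 2 / (m : ℝ) ^ 2 *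
        (((m : ℝ) + 1) ^ 2 * (((m : ℝ) + 1) ^ 2 - 1) / 6)
        = Real.exp (-1) * (((m : ℝ) ^ 2 + 2 * m) / (6 * (m : ℝ) ^ 2)) := by
      field_simp
      ring
    rw [e1]
    have e2 : (1 : ℝ) / 6 ≤ ((m : ℝ) ^ 2 + 2 * m) / (6 * (m : ℝ) ^ 2) := by
      rw [div_le_div_iff₀ (by norm_num) (by positivity)]
      nlinarith
    have e3 : (3 : ℝ) / 10 ≤ Real.exp (-1) := by
      rw [Real.exp_neg, ← one_div, div_le_div_iff₀ (by norm_num) (Real.exp_pos 1)]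
      have := Real.exp_one_lt_d9
      linarith
    calc (1 : ℝ) / 20 = 3 / 10 * (1 / 6) := by norm_num
      _ ≤ Real.exp (-1) * (((m : ℝ) ^ 2 + 2 * m) / (6 * (m : ℝ) ^ 2)) :=
        mul_le_mul e3 e2 (by norm_num) (Real.exp_pos _).le
  linarith [h1, h2, h4]

end Vale.Agent.Lib.P249.Lower
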