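import Vale.Agent.Lib.P249.Lower.TauProd

/-!
# P249 lower bound: dimension free moment bound for Euclidean Lipschitz functions
-/

namespace Vale.Agent.Lib.P249.Lower

open Finset

/-- `|t| ^ p ≤ p ^ p (exp t + exp (- t))` -/
theorem abs_rpow_le_exp (p : ℝ) (hp : 1 ≤ p) (t : ℝ) :
    |t| ^ p ≤ p ^ p * (Real.exp t + Real.exp (-t)) := by
  have hp0 : 0 < p := by linarith
  have h1 : |t| / p ≤ Real.exp (|t| / p) := by
    have := Real.add_one_le_exp (|t| / p)
    linarith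
  have h0 : 0 ≤ |t| / p := div_nonneg (abs_nonneg t) hp0.le
  have h2 : (|t| / p) ^ p ≤ (Real.exp (|t| / p)) ^ p := Real.rpow_le_rpow h0 h1 hp0.le
  have h3 : (Real.exp (|t| / p)) ^ p = Real.exp |t| := by
    rw [← Real.exp_mul]
    congr 1
    field_simp
  have h4 : Real.exp |t| ≤ Real.exp t + Real.exp (-t) := by
    rcases abs_cases t with ⟨h, _⟩ | ⟨h, _⟩
    · rw [h]
      have := Real.exp_pos (-t)
      linarith
    · rw [h]
      have := Real.exp_pos t
      linarith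
  have h5 : |t| ^ p = p ^ p * (|t| / p) ^ p := by
    rw [← Real.mul_rpow hp0.le h0]
    congr 1
    field_simp
  rw [h5]
  have hpp : 0 ≤ p ^ p := Real.rpow_nonneg hp0.le p
  apply mul_le_mul_of_nonneg_left _ hpp
  calc (|t| / p) ^ p ≤ (Real.exp (|t| / p)) ^ p := h2
    _ = Real.exp |t| := h3
    _ ≤ _ := h4

/-- exponential moment of a Lipschitz function -/
theorem exp_moment_bound {Ω : Type*} [Fintype Ω] (μ : Ω → ℝ) (g : Ω → ℝ) (K : ℝ)
    (hμ : ∀ x, 0 ≤ μ x) (hK : 0 < K)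
    (hτ : Tau μ (fun x y => Real.exp ((g x - g y) ^ 2 / 4)) K) (k : ℕ)
    (f : (Fin k → Ω) → ℝ)
    (hf : ∀ x y, f x - f y ≤ Real.sqrt (∑ i, (g (x i) - g (y i)) ^ 2)) :
    ∑ x, ∑ y, (∏ i, μ (x i)) * (∏ i, μ (y i)) * Real.exp (f x - f y) ≤ Real.exp 1 * K ^ k := by
  have hpi := Tau.pi hμ (fun x y => Real.exp_pos ((g x - g y) ^ 2 / 4)) hK hτ k
  have key := hpi (fun x => Real.exp (f x - 1)) (fun y => Real.exp (-f y))
    (fun x => (Real.exp_pos _).le) (fun y => (Real.exp_pos _).le) (by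
      intro x y
      show Real.exp (f x - 1) * Real.exp (-f y) ≤ ∏ i, Real.exp ((g (x i) - g (y i)) ^ 2 / 4)
      rw [← Real.exp_add, ← Real.exp_sum]
      apply Real.exp_le_exp.2
      set A := ∑ i, (g (x i) - g (y i)) ^ 2 with hA
      have hA0 : 0 ≤ A := Finset.sum_nonneg fun i _ => sq_nonneg _
      have hr : Real.sqrt A ^ 2 = A := Real.sq_sqrt hA0
      have h1 := hf x y
      have h2 : ∑ i, (g (x i) - g (y i)) ^ 2 / 4 = A / 4 := by
        rw [hA, Finset.sum_div]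
      rw [h2]
      nlinarith [sq_nonneg (Real.sqrt A - 2)])
  have hsplit : ∑ x, ∑ y, (∏ i, μ (x i)) * (∏ i, μ (y i)) * Real.exp (f x - f y) =
      Real.exp 1 * ((∑ x : Fin k → Ω, (∏ i, μ (x i)) * Real.exp (f x - 1)) *
        (∑ y : Fin k → Ω, (∏ i, μ (y i)) * Real.exp (-f y))) := by
    rw [Finset.sum_mul_sum, Finset.mul_sum]
    apply Finset.sum_congr rfl
    intro x _
    rw [Finset.mul_sum]
    apply Finset.sum_congr rfl
    intro y _
    have : Real.exp (f x - f y) = Real.exp 1 * (Real.exp (f x - 1) * Real.exp (-f y)) := by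
      rw [← Real.exp_add, ← Real.exp_add]
      congr 1
      ring
    rw [this]
    ring
  rw [hsplit]
  exact mul_le_mul_of_nonneg_left key (Real.exp_pos 1).le

/-- **Concentration.** -/
theorem moment_bound {Ω : Type*} [Fintype Ω] (μ : Ω → ℝ) (g : Ω → ℝ) (K : ℝ)
    (hμ : ∀ x, 0 ≤ μ x) (hK : 0 < K)
    (hτ : Tau μ (fun x y => Real.exp ((g x - g y) ^ 2 / 4)) K) (k : ℕ) (p : ℝ) (hp : 1 ≤ p)
    (f : (Fin k → Ω) → ℝ) (L : ℝ) (hL : 0 < L)
    (hf : ∀ x y, |f x - f y| ≤ L * Real.sqrt (∑ i, (g (x i) - g (y i)) ^ 2)) :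
    ∑ x, ∑ y, (∏ i, μ (x i)) * (∏ i, μ (y i)) * |f x - f y| ^ p ≤
      2 * Real.exp 1 * p ^ p * K ^ k * L ^ p := by
  have hp0 : 0 < p := by linarith
  have e1 := exp_moment_bound μ g K hμ hK hτ k (fun x => f x / L) (by
    intro x y
    have h := hf x y
    have h2 : f x - f y ≤ L * Real.sqrt (∑ i, (g (x i) - g (y i)) ^ 2) :=
      le_trans (le_abs_self _) h
    rw [← sub_div, div_le_iff₀ hL]
    linarith)
  have e2 := exp_moment_bound μ g K hμ hK hτ k (fun x => -(f x / L)) (by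
    intro x y
    have h := hf x y
    have h2 : -(f x - f y) ≤ L * Real.sqrt (∑ i, (g (x i) - g (y i)) ^ 2) :=
      le_trans (neg_le_abs _) h
    have h3 : -(f x / L) - -(f y / L) = (-(f x - f y)) / L := by ring
    rw [h3, div_le_iff₀ hL]
    linarith)
  have hLp : 0 ≤ L ^ p := Real.rpow_nonneg hL.le p
  have hpp : 0 ≤ p ^ p := Real.rpow_nonneg hp0.le p
  have hpt : ∀ x y : Fin k → Ω, (∏ i, μ (x i)) * (∏ i, μ (y i)) * |f x - f y| ^ p ≤
      L ^ p * p ^ p * ((∏ i, μ (x i)) * (∏ i, μ (y i)) * Real.exp (f x / L - f y / L) +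
        (∏ i, μ (x i)) * (∏ i, μ (y i)) * Real.exp (-(f x / L) - -(f y / L))) := by
    intro x y
    have hw : 0 ≤ (∏ i, μ (x i)) * (∏ i, μ (y i)) :=
      mul_nonneg (Finset.prod_nonneg fun i _ => hμ _) (Finset.prod_nonneg fun i _ => hμ _)
    have h1 := abs_rpow_le_exp p hp ((f x - f y) / L)
    have h2 : |f x - f y| ^ p = L ^ p * |(f x - f y) / L| ^ p := by
      rw [abs_div, abs_of_pos hL, ← Real.mul_rpow hL.le (div_nonneg (abs_nonneg _) hL.le)]
      congr 1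
      field_simp
    have h3 : f x / L - f y / L = (f x - f y) / L := by ring
    have h4 : -(f x / L) - -(f y / L) = -((f x - f y) / L) := by ring
    rw [h2, h3, h4]
    have h5 : L ^ p * |(f x - f y) / L| ^ p ≤
        L ^ p * (p ^ p * (Real.exp ((f x - f y) / L) + Real.exp (-((f x - f y) / L)))) :=
      mul_le_mul_of_nonneg_left h1 hLp
    calc (∏ i, μ (x i)) * (∏ i, μ (y i)) * (L ^ p * |(f x - f y) / L| ^ p)
        ≤ (∏ i, μ (x i)) * (∏ i, μ (y i)) *
          (L ^ p * (p ^ p * (Real.exp ((f x - f y) / L) + Real.exp (-((f x - f y) / L))))) :=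
          mul_le_mul_of_nonneg_left h5 hw
      _ = _ := by ring
  calc ∑ x, ∑ y, (∏ i, μ (x i)) * (∏ i, μ (y i)) * |f x - f y| ^ p
      ≤ ∑ x, ∑ y, L ^ p * p ^ p * ((∏ i, μ (x i)) * (∏ i, μ (y i)) * Real.exp (f x / L - f y / L) +
        (∏ i, μ (x i)) * (∏ i, μ (y i)) * Real.exp (-(f x / L) - -(f y / L))) :=
        Finset.sum_le_sum fun x _ => Finset.sum_le_sum fun y _ => hpt x y
    _ = L ^ p * p ^ p *
        ((∑ x, ∑ y, (∏ i, μ (x i)) * (∏ i, μ (y i)) * Real.exp (f x / L - f y / L)) +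
        (∑ x, ∑ y, (∏ i, μ (x i)) * (∏ i, μ (y i)) * Real.exp (-(f x / L) - -(f y / L)))) := by
        simp only [← Finset.mul_sum, ← Finset.sum_add_distrib]
    _ ≤ L ^ p * p ^ p * (Real.exp 1 * K ^ k + Real.exp 1 * K ^ k) :=
        mul_le_mul_of_nonneg_left (add_le_add e1 e2) (mul_nonneg hLp hpp)
    _ = _ := by ring

end Vale.Agent.Lib.P249.Lower
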