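import Vale.Agent.Lib.P249.Lower.Defs

/-!
# P249 lower bound: Khintchine's inequalities (with crude constants)
-/

namespace Vale.Agent.Lib.P249.Lower

open Finset

/-- exponential moment of a Rademacher sum -/
theorem rad_exp (k : ℕ) (a : Fin k → ℝ) :
    ∑ ε : Fin k → Bool, Real.exp (∑ i, a i * sgn (ε i)) ≤
      2 ^ k * Real.exp ((∑ i, a i ^ 2) / 2) := by
  have e1 : ∑ ε : Fin k → Bool, Real.exp (∑ i, a i * sgn (ε i))
      = ∏ i, ∑ b : Bool, Real.exp (a i * sgn b) := by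
    rw [Fintype.prod_sum]
    refine Finset.sum_congr rfl fun ε _ => ?_
    rw [Real.exp_sum]
  have e2 : (2 : ℝ) ^ k * Real.exp ((∑ i, a i ^ 2) / 2)
      = ∏ i : Fin k, (2 * Real.exp (a i ^ 2 / 2)) := by
    rw [Finset.prod_mul_distrib, Finset.prod_const, Finset.card_univ, Fintype.card_fin,
      ← Real.exp_sum, Finset.sum_div]
  rw [e1, e2]
  refine Finset.prod_le_prod (fun i _ => Finset.sum_nonneg fun b _ => (Real.exp_pos _).le)
    fun i _ => ?_
  have h := Real.cosh_le_exp_half_sq (a i)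
  rw [Real.cosh_eq] at h
  simp only [Fintype.sum_bool, sgn]
  simp only [if_true, Bool.false_eq_true, if_false, mul_one, mul_neg]
  linarith

/-- splitting off the first sign -/
theorem sum_bool_cons (k : ℕ) (f : (Fin (k + 1) → Bool) → ℝ) :
    ∑ ε, f ε = ∑ ε' : Fin k → Bool,
      (f (Fin.cons true ε' : Fin (k + 1) → Bool) + f (Fin.cons false ε' : Fin (k + 1) → Bool)) := by
  rw [← (Fin.consEquiv (fun _ : Fin (k + 1) => Bool)).sum_comp, Fintype.sum_prod_type_right]
  refine Finset.sum_congr rfl fun ε _ => ?_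
  simp [Fin.consEquiv]

/-- second moment of a Rademacher sum -/
theorem rad_sq (k : ℕ) (a : Fin k → ℝ) :
    ∑ ε : Fin k → Bool, (∑ i, a i * sgn (ε i)) ^ 2 = 2 ^ k * ∑ i, a i ^ 2 := by
  induction k with
  | zero => simp
  | succ k ih =>
    rw [sum_bool_cons]
    have h : ∀ ε' : Fin k → Bool,
        (∑ i, a i * sgn ((Fin.cons true ε' : Fin (k + 1) → Bool) i)) ^ 2
          + (∑ i, a i * sgn ((Fin.cons false ε' : Fin (k + 1) → Bool) i)) ^ 2
        = 2 * a 0 ^ 2 + 2 * (∑ i : Fin k, a i.succ * sgn (ε' i)) ^ 2 := by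
      intro ε'
      rw [Fin.sum_univ_succ, Fin.sum_univ_succ]
      simp only [Fin.cons_zero, Fin.cons_succ, sgn, if_true, Bool.false_eq_true, if_false]
      ring
    simp only [h]
    rw [Finset.sum_add_distrib, ← Finset.mul_sum, ← Finset.mul_sum, ih (fun i => a i.succ),
      Finset.sum_const, Finset.card_univ, Fintype.card_fun, Fintype.card_bool, Fintype.card_fin,
      Fin.sum_univ_succ]
    simp only [nsmul_eq_mul, Nat.cast_pow, Nat.cast_ofNat]
    ring

/-- local copy of the elementary bound of a power by exponentials -/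
theorem abs_rpow_le_exp' (p : ℝ) (hp : 1 ≤ p) (t : ℝ) :
    |t| ^ p ≤ p ^ p * (Real.exp t + Real.exp (-t)) := by
  have hp0 : 0 < p := by linarith
  have h1 : |t| / p ≤ Real.exp (|t| / p) := by
    have := Real.add_one_le_exp (|t| / p)
    linarith
  have h0 : 0 ≤ |t| / p := div_nonneg (abs_nonneg _) hp0.le
  have h2 : (|t| / p) ^ p ≤ Real.exp (|t| / p) ^ p := Real.rpow_le_rpow h0 h1 hp0.le
  rw [← Real.exp_mul, div_mul_cancel₀ _ hp0.ne'] at h2
  have h3 : Real.exp |t| ≤ Real.exp t + Real.exp (-t) := by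
    rcases abs_cases t with ⟨h, _⟩ | ⟨h, _⟩
    · rw [h]; linarith [Real.exp_pos (-t)]
    · rw [h]; linarith [Real.exp_pos t]
  have h4 : |t| ^ p = p ^ p * (|t| / p) ^ p := by
    rw [← Real.mul_rpow hp0.le h0, mul_div_cancel₀ _ hp0.ne']
  rw [h4]
  exact mul_le_mul_of_nonneg_left (h2.trans h3) (Real.rpow_nonneg hp0.le _)

theorem khin_upper (k : ℕ) (p : ℝ) (hp : 1 ≤ p) (a : Fin k → ℝ) :
    ∑ ε : Fin k → Bool, |∑ i, a i * sgn (ε i)| ^ p ≤
      2 ^ k * (4 * p ^ p) * (Real.sqrt (∑ i, a i ^ 2)) ^ p := by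
  have hp0 : 0 < p := by linarith
  set A : ℝ := ∑ i, a i ^ 2 with hA
  have hA0 : 0 ≤ A := Finset.sum_nonneg fun i _ => sq_nonneg _
  set s : ℝ := Real.sqrt A with hs
  rcases hA0.eq_or_lt with h0 | hpos
  · -- all the coefficients vanish
    have ha : ∀ i, a i = 0 := by
      intro i
      have := (Finset.sum_eq_zero_iff_of_nonneg (fun i _ => sq_nonneg (a i))).mp h0.symm i
        (Finset.mem_univ i)
      exact pow_eq_zero_iff (two_ne_zero) |>.mp this
    have : ∀ ε : Fin k → Bool, |∑ i, a i * sgn (ε i)| ^ p = 0 := by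
      intro ε
      simp [ha, Real.zero_rpow hp0.ne']
    simp only [this, Finset.sum_const_zero]
    have : 0 ≤ s ^ p := Real.rpow_nonneg (Real.sqrt_nonneg _) _
    have : 0 ≤ p ^ p := Real.rpow_nonneg hp0.le _
    positivity
  · have hs0 : 0 < s := Real.sqrt_pos.mpr hpos
    have hss : s ^ 2 = A := Real.sq_sqrt hA0
    have hnorm : ∑ i, (a i / s) ^ 2 = 1 := by
      simp only [div_pow]
      rw [← Finset.sum_div, hss, ← hA, div_self hpos.ne']
    have hnorm' : ∑ i, (-(a i / s)) ^ 2 = 1 := by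
      simpa using hnorm
    have b1 := rad_exp k (fun i => a i / s)
    have b2 := rad_exp k (fun i => -(a i / s))
    simp only [hnorm, hnorm'] at b1 b2
    have hexp : Real.exp (1 / 2) ≤ 2 := by
      have h1 : Real.exp (1 / 2) ^ 2 = Real.exp 1 := by
        rw [← Real.exp_nat_mul]; norm_num
      have h2 := Real.exp_one_lt_d9
      nlinarith [Real.exp_pos (1 / 2 : ℝ)]
    have pt : ∀ ε : Fin k → Bool, |∑ i, a i * sgn (ε i)| ^ p ≤
        s ^ p * (p ^ p * (Real.exp (∑ i, a i / s * sgn (ε i))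
          + Real.exp (∑ i, -(a i / s) * sgn (ε i)))) := by
      intro ε
      have e : ∑ i, a i * sgn (ε i) = s * ∑ i, a i / s * sgn (ε i) := by
        rw [Finset.mul_sum]
        refine Finset.sum_congr rfl fun i _ => ?_
        field_simp
      have e' : ∑ i, -(a i / s) * sgn (ε i) = -∑ i, a i / s * sgn (ε i) := by
        rw [← Finset.sum_neg_distrib]
        refine Finset.sum_congr rfl fun i _ => ?_
        ring
      rw [e, abs_mul, abs_of_pos hs0, Real.mul_rpow hs0.le (abs_nonneg _), e']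
      exact mul_le_mul_of_nonneg_left (abs_rpow_le_exp' p hp _) (Real.rpow_nonneg hs0.le _)
    have hsp : 0 ≤ s ^ p := Real.rpow_nonneg hs0.le _
    have hpp : 0 ≤ p ^ p := Real.rpow_nonneg hp0.le _
    calc ∑ ε : Fin k → Bool, |∑ i, a i * sgn (ε i)| ^ p
        ≤ ∑ ε : Fin k → Bool, s ^ p * (p ^ p * (Real.exp (∑ i, a i / s * sgn (ε i))
          + Real.exp (∑ i, -(a i / s) * sgn (ε i)))) := Finset.sum_le_sum fun ε _ => pt ε
      _ = s ^ p * (p ^ p * (∑ ε : Fin k → Bool, Real.exp (∑ i, a i / s * sgn (ε i))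
          + ∑ ε : Fin k → Bool, Real.exp (∑ i, -(a i / s) * sgn (ε i)))) := by
          rw [← Finset.mul_sum, ← Finset.mul_sum, Finset.sum_add_distrib]
      _ ≤ s ^ p * (p ^ p * (2 ^ k * Real.exp (1 / 2) + 2 ^ k * Real.exp (1 / 2))) := by
          gcongr
      _ ≤ s ^ p * (p ^ p * (2 ^ k * 2 + 2 ^ k * 2)) := by
          gcongr
      _ = 2 ^ k * (4 * p ^ p) * s ^ p := by ring

theorem khin_lower (k : ℕ) (p : ℝ) (hp : 2 ≤ p) (a : Fin k → ℝ) :
    2 ^ k * (Real.sqrt (∑ i, a i ^ 2)) ^ p ≤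
      ∑ ε : Fin k → Bool, |∑ i, a i * sgn (ε i)| ^ p := by
  have hA0 : 0 ≤ ∑ i, a i ^ 2 := Finset.sum_nonneg fun i _ => sq_nonneg _
  have h2k : (0 : ℝ) < 2 ^ k := by positivity
  have key := Real.rpow_arith_mean_le_arith_mean_rpow (Finset.univ : Finset (Fin k → Bool))
    (fun _ => (1 : ℝ) / 2 ^ k) (fun ε => (∑ i, a i * sgn (ε i)) ^ 2)
    (fun _ _ => by positivity)
    (by
      rw [Finset.sum_const, Finset.card_univ, Fintype.card_fun, Fintype.card_bool,
        Fintype.card_fin]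
      simp)
    (fun _ _ => sq_nonneg _) (p := p / 2) (by linarith)
  rw [← Finset.mul_sum, rad_sq, ← Finset.mul_sum] at key
  have e1 : (1 : ℝ) / 2 ^ k * (2 ^ k * ∑ i, a i ^ 2) = ∑ i, a i ^ 2 := by
    field_simp
  rw [e1] at key
  have e2 : (Real.sqrt (∑ i, a i ^ 2)) ^ p = (∑ i, a i ^ 2) ^ (p / 2) := by
    rw [Real.sqrt_eq_rpow, ← Real.rpow_mul hA0]
    congr 1; ring
  have e3 : ∀ ε : Fin k → Bool, ((∑ i, a i * sgn (ε i)) ^ 2) ^ (p / 2)
      = |∑ i, a i * sgn (ε i)| ^ p := by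
    intro ε
    rw [← sq_abs, ← Real.rpow_natCast, ← Real.rpow_mul (abs_nonneg _)]
    congr 1; push_cast; ring
  simp only [e3] at key
  rw [e2]
  calc 2 ^ k * (∑ i, a i ^ 2) ^ (p / 2)
      ≤ 2 ^ k * (1 / 2 ^ k * ∑ ε : Fin k → Bool, |∑ i, a i * sgn (ε i)| ^ p) :=
        mul_le_mul_of_nonneg_left key h2k.le
    _ = _ := by field_simp

end Vale.Agent.Lib.P249.Lower
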