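import Mathlib

/-!
# P249 lower bound: marginals of product weights
-/

namespace Vale.Agent.Lib.P249.Lower

open Finset

variable {Ω : Type*} [Fintype Ω]

theorem sum_prod_eq_one (μ : Ω → ℝ) (hμ1 : ∑ x, μ x = 1) (k : ℕ) :
    ∑ x : Fin k → Ω, ∏ i, μ (x i) = 1 := by
  classical
  have h := Finset.prod_univ_sum (fun _ : Fin k => (Finset.univ : Finset Ω))
    (fun (_ : Fin k) (t : Ω) => μ t)
  rw [Fintype.piFinset_univ] at h
  rw [← h]
  simp [hμ1]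

theorem sum_prod_marg (μ : Ω → ℝ) (hμ1 : ∑ x, μ x = 1) (k : ℕ) (i0 : Fin k) (ψ : Ω → ℝ) :
    ∑ x : Fin k → Ω, (∏ i, μ (x i)) * ψ (x i0) = ∑ t, μ t * ψ t := by
  classical
  have h := Finset.prod_univ_sum (fun _ : Fin k => (Finset.univ : Finset Ω))
    (fun (i : Fin k) (t : Ω) => μ t * (if i = i0 then ψ t else 1))
  rw [Fintype.piFinset_univ] at h
  have h1 : ∀ x : Fin k → Ω, (∏ i, μ (x i)) * ψ (x i0)
      = ∏ i, μ (x i) * (if i = i0 then ψ (x i) else 1) := by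
    intro x
    rw [Finset.prod_mul_distrib]
    congr 1
    rw [Finset.prod_ite_eq' Finset.univ i0 (fun i => ψ (x i))]
    simp
  rw [Finset.sum_congr rfl (fun x _ => h1 x), ← h]
  rw [← Finset.mul_prod_erase Finset.univ _ (Finset.mem_univ i0)]
  have h2 : ∏ i ∈ Finset.univ.erase i0, ∑ t, μ t * (if i = i0 then ψ t else 1) = 1 := by
    apply Finset.prod_eq_one
    intro i hi
    have hne : i ≠ i0 := Finset.ne_of_mem_erase hi
    simp [hne, hμ1]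
  rw [h2, mul_one]
  simp

theorem sum_prod_dist (μ g : Ω → ℝ) (hμ1 : ∑ x, μ x = 1) (k : ℕ) :
    ∑ x : Fin k → Ω, ∑ y : Fin k → Ω,
        (∏ i, μ (x i)) * (∏ i, μ (y i)) * ∑ i, (g (x i) - g (y i)) ^ 2 =
      k * ∑ s, ∑ t, μ s * μ t * (g s - g t) ^ 2 := by
  classical
  have h1 : ∀ i0 : Fin k, ∑ x : Fin k → Ω, ∑ y : Fin k → Ω,
      (∏ i, μ (x i)) * (∏ i, μ (y i)) * (g (x i0) - g (y i0)) ^ 2
      = ∑ s, ∑ t, μ s * μ t * (g s - g t) ^ 2 := by
    intro i0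
    have h2 : ∀ x : Fin k → Ω, ∑ y : Fin k → Ω,
        (∏ i, μ (x i)) * (∏ i, μ (y i)) * (g (x i0) - g (y i0)) ^ 2
        = (∏ i, μ (x i)) * ∑ t, μ t * (g (x i0) - g t) ^ 2 := by
      intro x
      rw [← sum_prod_marg μ hμ1 k i0 (fun t => (g (x i0) - g t) ^ 2), Finset.mul_sum]
      refine Finset.sum_congr rfl (fun y _ => ?_)
      ring
    rw [Finset.sum_congr rfl (fun x _ => h2 x)]
    rw [sum_prod_marg μ hμ1 k i0 (fun s => ∑ t, μ t * (g s - g t) ^ 2)]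
    refine Finset.sum_congr rfl (fun s _ => ?_)
    rw [Finset.mul_sum]
    refine Finset.sum_congr rfl (fun t _ => ?_)
    ring
  have h3 : ∑ x : Fin k → Ω, ∑ y : Fin k → Ω,
        (∏ i, μ (x i)) * (∏ i, μ (y i)) * ∑ i, (g (x i) - g (y i)) ^ 2
      = ∑ i0 : Fin k, ∑ x : Fin k → Ω, ∑ y : Fin k → Ω,
        (∏ i, μ (x i)) * (∏ i, μ (y i)) * (g (x i0) - g (y i0)) ^ 2 := by
    symm
    rw [Finset.sum_comm]
    refine Finset.sum_congr rfl (fun x _ => ?_)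
    rw [Finset.sum_comm]
    refine Finset.sum_congr rfl (fun y _ => ?_)
    rw [Finset.mul_sum]
  rw [h3, Finset.sum_congr rfl (fun i0 _ => h1 i0)]
  simp

end Vale.Agent.Lib.P249.Lower
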