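import Vale.Agent.Lib.P249.Lower.Base
import Vale.Agent.Lib.P249.Lower.BaseVar
import Vale.Agent.Lib.P249.Lower.Conc
import Vale.Agent.Lib.P249.Lower.Khin
import Vale.Agent.Lib.P249.Lower.Marg

/-!
# P249 lower bound: the main inequality
-/

namespace Vale.Agent.Lib.P249.Lower

open Finset

/-- squared Euclidean distance of two points of the grid -/
noncomputable def dist2 (m k : ℕ) (x y : Fin k → Fin (m + 1)) : ℝ :=
  ∑ i, (gpt m (x i) - gpt m (y i)) ^ 2

/-- `p`-th power of the `ℓ_p` distance of the images under the Rademacher map -/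
noncomputable def rho (p : ℝ) (m k : ℕ) (x y : Fin k → Fin (m + 1)) : ℝ :=
  ∑ ε : Fin k → Bool, |radMap m k x ε - radMap m k y ε| ^ p

theorem dist2_nonneg (m k : ℕ) (x y : Fin k → Fin (m + 1)) : 0 ≤ dist2 m k x y :=
  Finset.sum_nonneg fun _ _ => sq_nonneg _

theorem rho_nonneg (p : ℝ) (m k : ℕ) (x y : Fin k → Fin (m + 1)) : 0 ≤ rho p m k x y :=
  Finset.sum_nonneg fun _ _ => Real.rpow_nonneg (abs_nonneg _) _

theorem radMap_sub (m k : ℕ) (x y : Fin k → Fin (m + 1)) (ε : Fin k → Bool) :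
    radMap m k x ε - radMap m k y ε = ∑ i, (gpt m (x i) - gpt m (y i)) * sgn (ε i) := by
  unfold radMap
  rw [← Finset.sum_sub_distrib]
  exact Finset.sum_congr rfl fun i _ => by ring

theorem rho_le (p : ℝ) (hp : 1 ≤ p) (m k : ℕ) (x y : Fin k → Fin (m + 1)) :
    rho p m k x y ≤ 2 ^ k * (4 * p ^ p) * (Real.sqrt (dist2 m k x y)) ^ p := by
  unfold rho dist2
  simp only [radMap_sub]
  exact khin_upper k p hp _

theorem le_rho (p : ℝ) (hp : 2 ≤ p) (m k : ℕ) (x y : Fin k → Fin (m + 1)) :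
    2 ^ k * (Real.sqrt (dist2 m k x y)) ^ p ≤ rho p m k x y := by
  unfold rho dist2
  simp only [radMap_sub]
  exact khin_lower k p hp _

/-- the Rademacher map is injective on the grid -/
theorem radMap_injective (m k : ℕ) (hm : 1 ≤ m) : Function.Injective (radMap m k) := by
  intro x y hxy
  have h0 : rho 2 m k x y = 0 := by
    unfold rho
    refine Finset.sum_eq_zero fun ε _ => ?_
    rw [hxy, sub_self, abs_zero, Real.zero_rpow (by norm_num)]
  have h1 := le_rho 2 le_rfl m k x y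
  rw [h0] at h1
  have h2 : (Real.sqrt (dist2 m k x y)) ^ (2 : ℝ) = dist2 m k x y := by
    rw [Real.rpow_two, Real.sq_sqrt (dist2_nonneg m k x y)]
  rw [h2] at h1
  have h3 : dist2 m k x y ≤ 0 := by
    by_contra hcon
    push Not at hcon
    have : 0 < (2 : ℝ) ^ k * dist2 m k x y := by positivity
    linarith
  have h4 : dist2 m k x y = 0 := le_antisymm h3 (dist2_nonneg m k x y)
  unfold dist2 at h4
  rw [Finset.sum_eq_zero_iff_of_nonneg (fun _ _ => sq_nonneg _)] at h4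
  funext i
  have h5 := h4 i (Finset.mem_univ i)
  have h6 : gpt m (x i) - gpt m (y i) = 0 := by
    exact pow_eq_zero_iff (two_ne_zero) |>.1 h5
  exact gpt_injective m hm (sub_eq_zero.1 h6)

theorem sqrt_rpow (A p : ℝ) (hA : 0 ≤ A) : (Real.sqrt A) ^ p = A ^ (p / 2) := by
  rw [Real.sqrt_eq_rpow, ← Real.rpow_mul hA]
  congr 1
  ring

/-- average of the `p`-th power of the distance, from below (Jensen and the variance bound) -/
theorem avg_rho_ge (p : ℝ) (hp : 2 ≤ p) (m k : ℕ) (hm : 1 ≤ m) :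
    2 ^ k * ((k : ℝ) / 20) ^ (p / 2) ≤
      ∑ x, ∑ y, (∏ i, gmu m (x i)) * (∏ i, gmu m (y i)) * rho p m k x y := by
  set W : (Fin k → Fin (m + 1)) → (Fin k → Fin (m + 1)) → ℝ :=
    fun x y => (∏ i, gmu m (x i)) * (∏ i, gmu m (y i)) with hW
  have hW0 : ∀ x y, 0 ≤ W x y := fun x y =>
    mul_nonneg (Finset.prod_nonneg fun i _ => gmu_nonneg m _)
      (Finset.prod_nonneg fun i _ => gmu_nonneg m _)
  have hW1 : ∑ z : (Fin k → Fin (m + 1)) × (Fin k → Fin (m + 1)), W z.1 z.2 = 1 := by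
    rw [Fintype.sum_prod_type']
    simp only [hW]
    rw [← Finset.sum_mul_sum, sum_prod_eq_one (gmu m) (gmu_sum m) k, one_mul]
  have hJ := Real.rpow_arith_mean_le_arith_mean_rpow
    (Finset.univ : Finset ((Fin k → Fin (m + 1)) × (Fin k → Fin (m + 1))))
    (fun z => W z.1 z.2) (fun z => dist2 m k z.1 z.2) (fun z _ => hW0 _ _) hW1
    (fun z _ => dist2_nonneg m k _ _) (p := p / 2) (by linarith)
  rw [Fintype.sum_prod_type' (f := fun x y => W x y * dist2 m k x y),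
    Fintype.sum_prod_type' (f := fun x y => W x y * dist2 m k x y ^ (p / 2))] at hJ
  have hV : ∑ x, ∑ y, W x y * dist2 m k x y =
      k * ∑ s, ∑ t, gmu m s * gmu m t * (gpt m s - gpt m t) ^ 2 :=
    sum_prod_dist (gmu m) (gpt m) (gmu_sum m) k
  have hV2 : (k : ℝ) / 20 ≤ ∑ x, ∑ y, W x y * dist2 m k x y := by
    rw [hV]
    have := gmu_var m hm
    have hk0 : (0 : ℝ) ≤ k := Nat.cast_nonneg k
    nlinarith
  have h1 : ((k : ℝ) / 20) ^ (p / 2) ≤ ∑ x, ∑ y, W x y * dist2 m k x y ^ (p / 2) :=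
    le_trans (Real.rpow_le_rpow (by positivity) hV2 (by linarith)) hJ
  calc 2 ^ k * ((k : ℝ) / 20) ^ (p / 2)
      ≤ 2 ^ k * ∑ x, ∑ y, W x y * dist2 m k x y ^ (p / 2) :=
        mul_le_mul_of_nonneg_left h1 (by positivity)
    _ = ∑ x, ∑ y, W x y * (2 ^ k * dist2 m k x y ^ (p / 2)) := by
        rw [Finset.mul_sum]
        refine Finset.sum_congr rfl fun x _ => ?_
        rw [Finset.mul_sum]
        exact Finset.sum_congr rfl fun y _ => by ring
    _ ≤ ∑ x, ∑ y, W x y * rho p m k x y := by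
        refine Finset.sum_le_sum fun x _ => Finset.sum_le_sum fun y _ => ?_
        refine mul_le_mul_of_nonneg_left ?_ (hW0 x y)
        rw [← sqrt_rpow _ _ (dist2_nonneg m k x y)]
        exact le_rho p hp m k x y

theorem pow_K_le (m k : ℕ) (hk : 1 ≤ k) (hkm : k ≤ m) :
    ((1 + 1 / (m : ℝ)) ^ 2) ^ k ≤ Real.exp 2 := by
  have hm0 : (0 : ℝ) < m := by
    have : 1 ≤ m := le_trans hk hkm
    exact_mod_cast this
  have h1 : 1 + 1 / (m : ℝ) ≤ Real.exp (1 / (m : ℝ)) := by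
    have := Real.add_one_le_exp (1 / (m : ℝ))
    linarith
  have h0 : 0 ≤ 1 + 1 / (m : ℝ) := by positivity
  calc ((1 + 1 / (m : ℝ)) ^ 2) ^ k = (1 + 1 / (m : ℝ)) ^ (2 * k) := by rw [← pow_mul]
    _ ≤ (Real.exp (1 / (m : ℝ))) ^ (2 * k) := pow_le_pow_left₀ h0 h1 _
    _ = Real.exp (((2 * k : ℕ) : ℝ) * (1 / (m : ℝ))) := by rw [← Real.exp_nat_mul]
    _ ≤ Real.exp 2 := by
        apply Real.exp_le_exp.2
        push_cast
        have hkm' : (k : ℝ) ≤ m := by exact_mod_cast hkm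
        rw [mul_one_div, div_le_iff₀ hm0]
        linarith

/-- one coordinate of the embedding, from above (concentration) -/
theorem avg_coord_le (p : ℝ) (hp : 2 ≤ p) (m k : ℕ) (hk : 1 ≤ k) (hkm : k ≤ m) (A : ℝ)
    (hA : 0 < A) (f : (Fin k → Fin (m + 1)) → ℝ)
    (hf : ∀ x y, |f x - f y| ^ p ≤ A * rho p m k x y) :
    ∑ x, ∑ y, (∏ i, gmu m (x i)) * (∏ i, gmu m (y i)) * |f x - f y| ^ p ≤
      8 * Real.exp 3 * p ^ (2 * p) * 2 ^ k * A := by
  have hp0 : 0 < p := by linarith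
  have hm : 1 ≤ m := le_trans hk hkm
  have hpp : 0 < p ^ p := Real.rpow_pos_of_pos hp0 p
  set B : ℝ := A * (2 ^ k * (4 * p ^ p)) with hB
  have hB0 : 0 < B := by positivity
  set L : ℝ := B ^ (1 / p) with hL
  have hL0 : 0 < L := Real.rpow_pos_of_pos hB0 _
  have hLp : L ^ p = B := by
    rw [hL, ← Real.rpow_mul hB0.le, one_div_mul_cancel hp0.ne', Real.rpow_one]
  have hf' : ∀ x y, |f x - f y| ≤ L * Real.sqrt (∑ i, (gpt m (x i) - gpt m (y i)) ^ 2) := by
    intro x y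
    have h1 : |f x - f y| ^ p ≤ (L * Real.sqrt (dist2 m k x y)) ^ p := by
      rw [Real.mul_rpow hL0.le (Real.sqrt_nonneg _), hLp]
      calc |f x - f y| ^ p ≤ A * rho p m k x y := hf x y
        _ ≤ A * (2 ^ k * (4 * p ^ p) * (Real.sqrt (dist2 m k x y)) ^ p) :=
            mul_le_mul_of_nonneg_left (rho_le p (by linarith) m k x y) hA.le
        _ = B * (Real.sqrt (dist2 m k x y)) ^ p := by rw [hB]; ring
    exact (Real.rpow_le_rpow_iff (abs_nonneg _)
      (mul_nonneg hL0.le (Real.sqrt_nonneg _)) hp0).1 h1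
  have hK0 : (0 : ℝ) < (1 + 1 / (m : ℝ)) ^ 2 := by positivity
  have hmb := moment_bound (gmu m) (gpt m) ((1 + 1 / (m : ℝ)) ^ 2) (gmu_nonneg m) hK0
    (gmu_tau m hm) k p (by linarith) f L hL0 hf'
  refine le_trans hmb ?_
  rw [hLp]
  have hK := pow_K_le m k hk hkm
  have he : Real.exp 1 * Real.exp 2 = Real.exp 3 := by
    rw [← Real.exp_add]; norm_num
  have hp2 : p ^ (2 * p) = p ^ p * p ^ p := by
    rw [two_mul, Real.rpow_add hp0]
  calc 2 * Real.exp 1 * p ^ p * ((1 + 1 / (m : ℝ)) ^ 2) ^ k * B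
      ≤ 2 * Real.exp 1 * p ^ p * Real.exp 2 * B := by
        apply mul_le_mul_of_nonneg_right _ hB0.le
        apply mul_le_mul_of_nonneg_left hK
        positivity
    _ = 8 * Real.exp 3 * p ^ (2 * p) * 2 ^ k * A := by
        rw [hB, hp2, ← he]; ring

/-- **Main inequality.** -/
theorem lower_core (p : ℝ) (hp : 2 ≤ p) (m k d : ℕ) (hk : 1 ≤ k) (hkm : k ≤ m) (a A : ℝ)
    (ha : 0 < a) (hA : 0 < A) (F : (Fin k → Fin (m + 1)) → Fin d → ℝ)
    (hlo : ∀ x y, a * rho p m k x y ≤ ∑ j, |F x j - F y j| ^ p)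
    (hhi : ∀ x y, ∑ j, |F x j - F y j| ^ p ≤ A * rho p m k x y) :
    a * ((k : ℝ) / 20) ^ (p / 2) ≤ d * (8 * Real.exp 3 * p ^ (2 * p)) * A := by
  have hm : 1 ≤ m := le_trans hk hkm
  set W : (Fin k → Fin (m + 1)) → (Fin k → Fin (m + 1)) → ℝ :=
    fun x y => (∏ i, gmu m (x i)) * (∏ i, gmu m (y i)) with hW
  have hW0 : ∀ x y, 0 ≤ W x y := fun x y =>
    mul_nonneg (Finset.prod_nonneg fun i _ => gmu_nonneg m _)
      (Finset.prod_nonneg fun i _ => gmu_nonneg m _)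
  have h1 : a * (2 ^ k * ((k : ℝ) / 20) ^ (p / 2)) ≤
      ∑ x, ∑ y, W x y * ∑ j, |F x j - F y j| ^ p := by
    calc a * (2 ^ k * ((k : ℝ) / 20) ^ (p / 2))
        ≤ a * ∑ x, ∑ y, W x y * rho p m k x y :=
          mul_le_mul_of_nonneg_left (avg_rho_ge p hp m k hm) ha.le
      _ = ∑ x, ∑ y, W x y * (a * rho p m k x y) := by
          rw [Finset.mul_sum]
          refine Finset.sum_congr rfl fun x _ => ?_
          rw [Finset.mul_sum]
          exact Finset.sum_congr rfl fun y _ => by ring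
      _ ≤ ∑ x, ∑ y, W x y * ∑ j, |F x j - F y j| ^ p :=
          Finset.sum_le_sum fun x _ => Finset.sum_le_sum fun y _ =>
            mul_le_mul_of_nonneg_left (hlo x y) (hW0 x y)
  have h2 : ∑ x, ∑ y, W x y * ∑ j, |F x j - F y j| ^ p =
      ∑ j, ∑ x, ∑ y, W x y * |F x j - F y j| ^ p := by
    calc ∑ x, ∑ y, W x y * ∑ j, |F x j - F y j| ^ p
        = ∑ x, ∑ j, ∑ y, W x y * |F x j - F y j| ^ p := by
          refine Finset.sum_congr rfl fun x _ => ?_
          simp only [Finset.mul_sum]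
          exact Finset.sum_comm
      _ = ∑ j, ∑ x, ∑ y, W x y * |F x j - F y j| ^ p := Finset.sum_comm
  have h3 : ∀ j, ∑ x, ∑ y, W x y * |F x j - F y j| ^ p ≤
      8 * Real.exp 3 * p ^ (2 * p) * 2 ^ k * A := by
    intro j
    refine avg_coord_le p hp m k hk hkm A hA (fun x => F x j) fun x y => ?_
    refine le_trans ?_ (hhi x y)
    exact Finset.single_le_sum (f := fun j => |F x j - F y j| ^ p)
      (fun j _ => Real.rpow_nonneg (abs_nonneg _) _) (Finset.mem_univ j)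
  have h4 : ∑ j : Fin d, ∑ x, ∑ y, W x y * |F x j - F y j| ^ p ≤
      d * (8 * Real.exp 3 * p ^ (2 * p) * 2 ^ k * A) := by
    calc ∑ j : Fin d, ∑ x, ∑ y, W x y * |F x j - F y j| ^ p
        ≤ ∑ _j : Fin d, 8 * Real.exp 3 * p ^ (2 * p) * 2 ^ k * A :=
          Finset.sum_le_sum fun j _ => h3 j
      _ = d * (8 * Real.exp 3 * p ^ (2 * p) * 2 ^ k * A) := by
          rw [Finset.sum_const, Finset.card_univ, Fintype.card_fin, nsmul_eq_mul]
  rw [h2] at h1
  have h5 := le_trans h1 h4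
  have h2k : (0 : ℝ) < 2 ^ k := by positivity
  have h6 : 2 ^ k * (a * ((k : ℝ) / 20) ^ (p / 2)) ≤
      2 ^ k * (d * (8 * Real.exp 3 * p ^ (2 * p)) * A) := by
    calc 2 ^ k * (a * ((k : ℝ) / 20) ^ (p / 2)) = a * (2 ^ k * ((k : ℝ) / 20) ^ (p / 2)) := by ring
      _ ≤ d * (8 * Real.exp 3 * p ^ (2 * p) * 2 ^ k * A) := h5
      _ = 2 ^ k * (d * (8 * Real.exp 3 * p ^ (2 * p)) * A) := by ring
  exact le_of_mul_le_mul_left h6 h2k

end Vale.Agent.Lib.P249.Lower
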