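import Mathlib

/-!
# P249, lower bound for `p > 2`: definitions

`Tau μ C K` is Maurey's property (tau) for the weights `μ` on a finite set, written
multiplicatively: `u = exp (Q f)`, `v = exp (- f)`, `C = exp cost`.
The base space is the grid `{0, 1/m, ..., 1}` with weights proportional to `exp (- t ^ 2 / 2)`.
-/

namespace Vale.Agent.Lib.P249.Lower

/-- multiplicative form of property (tau), with a constant `K` -/
def Tau {Ω : Type*} [Fintype Ω] (μ : Ω → ℝ) (C : Ω → Ω → ℝ) (K : ℝ) : Prop :=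
  ∀ u v : Ω → ℝ, (∀ x, 0 ≤ u x) → (∀ y, 0 ≤ v y) → (∀ x y, u x * v y ≤ C x y) →
    (∑ x, μ x * u x) * (∑ y, μ y * v y) ≤ K

/-- the sign `±1` attached to a boolean -/
def sgn (b : Bool) : ℝ := if b then 1 else -1

/-- the grid point `x / m` -/
noncomputable def gpt (m : ℕ) (x : Fin (m + 1)) : ℝ := ((x : ℕ) : ℝ) / m

/-- Gaussian weight of a grid point -/
noncomputable def gw (m : ℕ) (x : Fin (m + 1)) : ℝ := Real.exp (-(gpt m x) ^ 2 / 2)

/-- normalised Gaussian weight -/
noncomputable def gmu (m : ℕ) (x : Fin (m + 1)) : ℝ := gw m x / ∑ y, gw m y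

/-- the Rademacher map: the point `x` of the grid `{0, 1/m, ..., 1} ^ k` goes to the function
`ε ↦ ∑ i, x_i ε_i` on the discrete cube -/
noncomputable def radMap (m k : ℕ) (x : Fin k → Fin (m + 1)) (ε : Fin k → Bool) : ℝ :=
  ∑ i, gpt m (x i) * sgn (ε i)

end Vale.Agent.Lib.P249.Lower
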