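import Mathlib

/-!
# P249: the norm of `ℓ_p^d` and the embedding property defining `d_p(n, D)`
-/

namespace Vale.Agent.Lib.P249.Lower

/-- The norm of `ℓ_p^d`: the `p`-th root of `∑ |y k| ^ p`. -/
noncomputable def lpNorm (p : ℝ) {d : ℕ} (y : Fin d → ℝ) : ℝ := (∑ k, |y k| ^ p) ^ (1 / p)

/-- `Embeds p n D d`: every `n`-point subset of every `ℓ_p^m` admits a map into `ℓ_p^d` with
distortion at most `D` (with a scaling factor `s > 0`, as in the problem). -/
def Embeds (p : ℝ) (n : ℕ) (D : ℝ) (d : ℕ) : Prop :=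
  ∀ (m : ℕ) (x : Fin n → Fin m → ℝ), Function.Injective x →
    ∃ (f : Fin n → Fin d → ℝ) (s : ℝ), 0 < s ∧ ∀ i j,
      s * lpNorm p (x i - x j) ≤ lpNorm p (f i - f j) ∧
      lpNorm p (f i - f j) ≤ D * s * lpNorm p (x i - x j)

end Vale.Agent.Lib.P249.Lower
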