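import Vale.Agent.Lib.P249.Lower.Core
import Vale.Agent.Lib.P249.Lower.EmbDefs

/-!
# P249 lower bound: the grid with `n = (k + 1) ^ k` points needs dimension `c k ^ (p / 2) / D ^ p`
-/

namespace Vale.Agent.Lib.P249.Lower

open Finset

theorem lpNorm_rpow (p : ℝ) (hp : 0 < p) {d : ℕ} (y : Fin d → ℝ) :
    lpNorm p y ^ p = ∑ j, |y j| ^ p := by
  unfold lpNorm
  rw [← Real.rpow_mul (Finset.sum_nonneg fun j _ => Real.rpow_nonneg (abs_nonneg _) _),
    one_div_mul_cancel hp.ne', Real.rpow_one]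

theorem lpNorm_nonneg (p : ℝ) {d : ℕ} (y : Fin d → ℝ) : 0 ≤ lpNorm p y :=
  Real.rpow_nonneg (Finset.sum_nonneg fun _ _ => Real.rpow_nonneg (abs_nonneg _) _) _

theorem embeds_grid (p : ℝ) (hp : 2 ≤ p) (k d : ℕ) (hk : 1 ≤ k) (D : ℝ) (hD : 0 < D)
    (hE : Embeds p ((k + 1) ^ k) D d) :
    ((k : ℝ) / 20) ^ (p / 2) ≤ d * (8 * Real.exp 3 * p ^ (2 * p)) * D ^ p := by
  have hp0 : 0 < p := by linarith
  have hc1 : Fintype.card (Fin k → Fin (k + 1)) = (k + 1) ^ k := by
    simp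
  have hc2 : Fintype.card (Fin k → Bool) = 2 ^ k := by
    simp
  let e : (Fin k → Fin (k + 1)) ≃ Fin ((k + 1) ^ k) := Fintype.equivFinOfCardEq hc1
  let e' : (Fin k → Bool) ≃ Fin (2 ^ k) := Fintype.equivFinOfCardEq hc2
  let x : Fin ((k + 1) ^ k) → Fin (2 ^ k) → ℝ := fun i c => radMap k k (e.symm i) (e'.symm c)
  have hx : Function.Injective x := by
    intro i j hij
    have h1 : radMap k k (e.symm i) = radMap k k (e.symm j) := by
      funext ε
      have := congrFun hij (e' ε)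
      simpa [x] using this
    exact e.symm.injective (radMap_injective k k hk h1)
  obtain ⟨f, s, hs, hf⟩ := hE (2 ^ k) x hx
  have hnorm : ∀ u v : Fin k → Fin (k + 1), lpNorm p (x (e u) - x (e v)) ^ p = rho p k k u v := by
    intro u v
    rw [lpNorm_rpow p hp0]
    unfold rho
    rw [← Equiv.sum_comp e']
    refine Finset.sum_congr rfl fun ε _ => ?_
    simp [x]
  have hsp : 0 < s ^ p := Real.rpow_pos_of_pos hs p
  have hDs : 0 < (D * s) ^ p := Real.rpow_pos_of_pos (mul_pos hD hs) p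
  have key := lower_core p hp k k d hk le_rfl (s ^ p) ((D * s) ^ p) hsp hDs (fun u => f (e u))
    (fun u v => by
      have h1 := (hf (e u) (e v)).1
      have h2 := Real.rpow_le_rpow (mul_nonneg hs.le (lpNorm_nonneg p _)) h1 hp0.le
      rw [Real.mul_rpow hs.le (lpNorm_nonneg p _), hnorm, lpNorm_rpow p hp0] at h2
      simpa using h2)
    (fun u v => by
      have h1 := (hf (e u) (e v)).2
      have h2 := Real.rpow_le_rpow (lpNorm_nonneg p _) h1 hp0.le
      rw [Real.mul_rpow (mul_pos hD hs).le (lpNorm_nonneg p _), hnorm, lpNorm_rpow p hp0] at h2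
      simpa using h2)
  rw [Real.mul_rpow hD.le hs.le] at key
  have h6 : s ^ p * ((k : ℝ) / 20) ^ (p / 2) ≤
      s ^ p * (d * (8 * Real.exp 3 * p ^ (2 * p)) * D ^ p) := by
    calc s ^ p * ((k : ℝ) / 20) ^ (p / 2) ≤ d * (8 * Real.exp 3 * p ^ (2 * p)) * (D ^ p * s ^ p) := key
      _ = s ^ p * (d * (8 * Real.exp 3 * p ^ (2 * p)) * D ^ p) := by ring
  exact le_of_mul_le_mul_left h6 hsp

end Vale.Agent.Lib.P249.Lower
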