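import Vale.Agent.Lib.P249.Lower.EmbDefs

/-!
# P249 lower bound: `d_p(n, D)` is monotone in `n`; choice of `k`
-/

namespace Vale.Agent.Lib.P249.Lower

open Finset

/-- the padded point set -/
noncomputable def padPts {n n' m : ℕ} (x' : Fin n' → Fin m → ℝ) (i : Fin n) : Fin (m + 1) → ℝ :=
  if h : (i : ℕ) < n' then Fin.cons (0 : ℝ) (x' ⟨i, h⟩) else Fin.cons ((i : ℝ) + 1) (0 : Fin m → ℝ)

theorem padPts_injective {n n' m : ℕ} (x' : Fin n' → Fin m → ℝ) (hx : Function.Injective x') :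
    Function.Injective (padPts (n := n) x') := by
  intro i j hij
  unfold padPts at hij
  by_cases hi : (i : ℕ) < n' <;> by_cases hj : (j : ℕ) < n'
  · rw [dif_pos hi, dif_pos hj] at hij
    have h2 : x' ⟨i, hi⟩ = x' ⟨j, hj⟩ := (Fin.cons_inj.1 hij).2
    have h3 := hx h2
    apply Fin.ext
    simpa using h3
  · rw [dif_pos hi, dif_neg hj] at hij
    have h2 : (0 : ℝ) = (j : ℝ) + 1 := (Fin.cons_inj.1 hij).1
    have : (0 : ℝ) ≤ (j : ℝ) := Nat.cast_nonneg _
    linarith
  · rw [dif_neg hi, dif_pos hj] at hij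
    have h2 : (i : ℝ) + 1 = 0 := (Fin.cons_inj.1 hij).1
    have : (0 : ℝ) ≤ (i : ℝ) := Nat.cast_nonneg _
    linarith
  · rw [dif_neg hi, dif_neg hj] at hij
    have h2 : (i : ℝ) + 1 = (j : ℝ) + 1 := (Fin.cons_inj.1 hij).1
    have h3 : ((i : ℕ) : ℝ) = ((j : ℕ) : ℝ) := by linarith
    apply Fin.ext
    exact_mod_cast h3

theorem lpNorm_padPts {p : ℝ} (hp : 0 < p) {n n' m : ℕ} (h : n' ≤ n) (x' : Fin n' → Fin m → ℝ)
    (i j : Fin n') :
    lpNorm p (padPts (n := n) x' (Fin.castLE h i) - padPts (n := n) x' (Fin.castLE h j)) =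
      lpNorm p (x' i - x' j) := by
  unfold lpNorm padPts
  have hi : ((Fin.castLE h i : Fin n) : ℕ) < n' := by simp
  have hj : ((Fin.castLE h j : Fin n) : ℕ) < n' := by simp
  rw [dif_pos hi, dif_pos hj, Fin.sum_univ_succ]
  simp [Real.zero_rpow hp.ne']

theorem Embeds.mono {p : ℝ} (hp : 0 < p) {n n' : ℕ} (h : n' ≤ n) {D : ℝ} {d : ℕ}
    (hE : Embeds p n D d) : Embeds p n' D d := by
  intro m x' hx'
  obtain ⟨f, s, hs, hf⟩ := hE (m + 1) (padPts (n := n) x') (padPts_injective x' hx')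
  refine ⟨fun i => f (Fin.castLE h i), s, hs, ?_⟩
  intro i j
  have := hf (Fin.castLE h i) (Fin.castLE h j)
  rw [lpNorm_padPts hp h x' i j] at this
  exact this

theorem exists_k (n : ℕ) (hn : 16 ≤ n) :
    ∃ k : ℕ, 1 ≤ k ∧ (k + 1) ^ k ≤ n ∧
      Real.log n / (4 * Real.log (Real.log n)) ≤ k := by
  set L := Real.log n with hL
  have hn0 : (0 : ℝ) < n := by exact_mod_cast (by omega : 0 < n)
  have h16 : Real.log 16 ≤ L := by
    apply Real.log_le_log (by norm_num)
    exact_mod_cast hn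
  have hlog16 : Real.log 16 = 4 * Real.log 2 := by
    rw [show (16 : ℝ) = 2 ^ 4 by norm_num, Real.log_pow]
    norm_num
  have hl2 := Real.log_two_gt_d9
  have hl2' := Real.log_two_lt_d9
  have he := Real.exp_one_lt_d9
  have hLe : Real.exp 1 ≤ L := by linarith
  have hL0 : 0 < L := lt_of_lt_of_le (Real.exp_pos 1) hLe
  have hL2 : 2 ≤ L := by linarith
  have hll1 : 1 ≤ Real.log L := (Real.le_log_iff_exp_le hL0).2 hLe
  have hll2 : Real.log L ≤ L / 2 := by
    have h1 := Real.log_le_sub_one_of_pos (show 0 < L / 2 by positivity)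
    rw [Real.log_div hL0.ne' (by norm_num)] at h1
    linarith
  have hll0 : 0 < Real.log L := by linarith
  set r := L / (2 * Real.log L) with hr
  have hr1 : 1 ≤ r := by
    rw [hr, le_div_iff₀ (by positivity)]
    linarith
  have hr0 : 0 ≤ r := by linarith
  set k := ⌊r⌋₊ with hk
  have hk1 : 1 ≤ k := by
    rw [hk]
    exact Nat.le_floor (by exact_mod_cast hr1)
  have hkr : (k : ℝ) ≤ r := Nat.floor_le hr0
  have hkr2 : r < (k : ℝ) + 1 := Nat.lt_floor_add_one r
  have hk1' : (1 : ℝ) ≤ k := by exact_mod_cast hk1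
  refine ⟨k, hk1, ?_, ?_⟩
  · have hrL : r ≤ L / 2 := by
      rw [hr, div_le_iff₀ (by positivity)]
      nlinarith
    have hk1L : (k : ℝ) + 1 ≤ L := by linarith
    have hlogk : Real.log ((k : ℝ) + 1) ≤ Real.log L :=
      Real.log_le_log (by positivity) hk1L
    have hlogk0 : 0 ≤ Real.log ((k : ℝ) + 1) := Real.log_nonneg (by linarith)
    have hmul : (k : ℝ) * Real.log ((k : ℝ) + 1) ≤ L := by
      have h1 : (k : ℝ) * Real.log ((k : ℝ) + 1) ≤ r * Real.log L :=
        mul_le_mul hkr hlogk hlogk0 hr0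
      have h2 : r * Real.log L = L / 2 := by
        rw [hr]
        field_simp
      linarith
    have hcast : (((k + 1) ^ k : ℕ) : ℝ) ≤ (n : ℝ) := by
      push_cast
      have hpos : (0 : ℝ) < (k : ℝ) + 1 := by positivity
      calc ((k : ℝ) + 1) ^ k = Real.exp ((k : ℝ) * Real.log ((k : ℝ) + 1)) := by
            rw [mul_comm, Real.exp_mul, Real.exp_log hpos, Real.rpow_natCast]
        _ ≤ Real.exp L := Real.exp_le_exp.2 hmul
        _ = n := by rw [hL, Real.exp_log hn0]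
    exact_mod_cast hcast
  · have h1 : L / (4 * Real.log L) = r / 2 := by
      rw [hr]
      field_simp
      ring
    rw [h1]
    linarith

end Vale.Agent.Lib.P249.Lower
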