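import Vale.Agent.Lib.P249.Lower.Defs

/-!
# P249 lower bound: property (tau) tensorises
-/

namespace Vale.Agent.Lib.P249.Lower

/-- product of two spaces -/
theorem Tau.prod {Ω₁ Ω₂ : Type*} [Fintype Ω₁] [Fintype Ω₂] {μ₁ : Ω₁ → ℝ} {μ₂ : Ω₂ → ℝ}
    {C₁ : Ω₁ → Ω₁ → ℝ} {C₂ : Ω₂ → Ω₂ → ℝ} {K₁ K₂ : ℝ}
    (hμ₁ : ∀ x, 0 ≤ μ₁ x) (hC₂ : ∀ x y, 0 < C₂ x y) (hK₁ : 0 < K₁)
    (h₁ : Tau μ₁ C₁ K₁) (h₂ : Tau μ₂ C₂ K₂) :
    Tau (fun z : Ω₁ × Ω₂ => μ₁ z.1 * μ₂ z.2) (fun z z' => C₁ z.1 z'.1 * C₂ z.2 z'.2)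
      (K₁ * K₂) := by
  intro u v hu hv huv
  set U : Ω₂ → ℝ := fun x2 => ∑ x1, μ₁ x1 * u (x1, x2) with hU
  set V : Ω₂ → ℝ := fun y2 => ∑ y1, μ₁ y1 * v (y1, y2) with hV
  have hU0 : ∀ x, 0 ≤ U x := fun x => Finset.sum_nonneg fun i _ => mul_nonneg (hμ₁ i) (hu _)
  have hV0 : ∀ x, 0 ≤ V x := fun x => Finset.sum_nonneg fun i _ => mul_nonneg (hμ₁ i) (hv _)
  have key : ∀ x2 y2, (U x2 / K₁) * V y2 ≤ C₂ x2 y2 := by
    intro x2 y2
    have hc := hC₂ x2 y2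
    have := h₁ (fun x1 => u (x1, x2) / C₂ x2 y2) (fun y1 => v (y1, y2))
      (fun x => div_nonneg (hu _) hc.le) (fun y => hv _) (by
        intro x y
        have h := huv (x, x2) (y, y2)
        simp only at h
        rw [div_mul_eq_mul_div, div_le_iff₀ hc]
        exact h)
    have e1 : ∑ x1, μ₁ x1 * (u (x1, x2) / C₂ x2 y2) = U x2 / C₂ x2 y2 := by
      rw [hU]; simp only [Finset.sum_div, mul_div_assoc]
    rw [e1] at this
    change U x2 / C₂ x2 y2 * V y2 ≤ K₁ at this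
    rw [div_mul_eq_mul_div, div_le_iff₀ hc] at this
    rw [div_mul_eq_mul_div, div_le_iff₀ hK₁]
    linarith
  have main := h₂ (fun x => U x / K₁) V (fun x => div_nonneg (hU0 x) hK₁.le) hV0 key
  have e2 : ∑ x, μ₂ x * (U x / K₁) = (∑ x, μ₂ x * U x) / K₁ := by
    simp only [Finset.sum_div, mul_div_assoc]
  rw [e2, div_mul_eq_mul_div, div_le_iff₀ hK₁] at main
  have e3 : ∑ z : Ω₁ × Ω₂, μ₁ z.1 * μ₂ z.2 * u z = ∑ x, μ₂ x * U x := by
    rw [Fintype.sum_prod_type_right]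
    refine Finset.sum_congr rfl fun x _ => ?_
    rw [hU, Finset.mul_sum]
    refine Finset.sum_congr rfl fun y _ => ?_
    ring
  have e4 : ∑ z : Ω₁ × Ω₂, μ₁ z.1 * μ₂ z.2 * v z = ∑ x, μ₂ x * V x := by
    rw [Fintype.sum_prod_type_right]
    refine Finset.sum_congr rfl fun x _ => ?_
    rw [hV, Finset.mul_sum]
    refine Finset.sum_congr rfl fun y _ => ?_
    ring
  rw [e3, e4]
  linarith

/-- transport along an equivalence -/
theorem Tau.congr_equiv {Ω Ω' : Type*} [Fintype Ω] [Fintype Ω'] (e : Ω' ≃ Ω) {μ : Ω → ℝ}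
    {C : Ω → Ω → ℝ} {K : ℝ} (h : Tau μ C K) :
    Tau (fun x : Ω' => μ (e x)) (fun x y => C (e x) (e y)) K := by
  intro u v hu hv huv
  have := h (fun x => u (e.symm x)) (fun y => v (e.symm y)) (fun x => hu _) (fun y => hv _)
    (fun x y => by simpa using huv (e.symm x) (e.symm y))
  have e1 : ∑ x, μ (e x) * u x = ∑ x, μ x * u (e.symm x) := by
    rw [← Equiv.sum_comp e]; simp
  have e2 : ∑ x, μ (e x) * v x = ∑ x, μ x * v (e.symm x) := by
    rw [← Equiv.sum_comp e]; simp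
  rw [e1, e2]
  exact this

/-- powers of one space -/
theorem Tau.pi {Ω : Type*} [Fintype Ω] {μ : Ω → ℝ} {C : Ω → Ω → ℝ} {K : ℝ}
    (hμ : ∀ x, 0 ≤ μ x) (hC : ∀ x y, 0 < C x y) (hK : 0 < K) (h : Tau μ C K) (k : ℕ) :
    Tau (fun x : Fin k → Ω => ∏ i, μ (x i)) (fun x y => ∏ i, C (x i) (y i)) (K ^ k) := by
  induction k with
  | zero =>
    intro u v hu hv huv
    have := huv default default
    simpa [Fintype.sum_unique] using this
  | succ k ih =>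
    have hp := Tau.prod (μ₁ := μ) (C₁ := C) (K₁ := K) hμ
      (fun x y : Fin k → Ω => Finset.prod_pos fun i _ => hC (x i) (y i)) hK h ih
    have := Tau.congr_equiv (Fin.consEquiv (fun _ : Fin (k + 1) => Ω)).symm hp
    intro u v hu hv huv
    have h2 := this u v hu hv (by
      intro x y
      have := huv x y
      simp only [Fin.prod_univ_succ] at this
      simpa [Fin.consEquiv, Fin.tail] using this)
    have e1 : ∀ w : (Fin (k + 1) → Ω) → ℝ, ∑ x : Fin (k + 1) → Ω, (∏ i, μ (x i)) * w x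
        = ∑ x : Fin (k + 1) → Ω,
          μ (((Fin.consEquiv (fun _ : Fin (k + 1) => Ω)).symm x).1) *
            (∏ i, μ (((Fin.consEquiv (fun _ : Fin (k + 1) => Ω)).symm x).2 i)) * w x := by
      intro w
      refine Finset.sum_congr rfl fun x _ => ?_
      rw [Fin.prod_univ_succ]
      simp [Fin.consEquiv, Fin.tail]
    rw [e1 u, e1 v, pow_succ, mul_comm (K ^ k) K]
    exact h2

end Vale.Agent.Lib.P249.Lower
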